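import Vale.Agent.P153.BK.Uniq

/-!
Burton–Keane: the hypotheses in terms of single flips, and the output for finite windows.
-/

namespace Vale.Agent.P153.BK

open Relation MeasureTheory Filter Topology Set
open scoped ENNReal symmDiff

/-- Change the colour of one vertex. -/
def flip (x : ℤ × ℤ) (τ : Om) : Om := Function.update τ x (!τ x)

/-- Prescribe the colours in a finite set. -/
noncomputable def recF (F : Finset (ℤ × ℤ)) (η τ : Om) : Om := by
  classical exact fun x => if x ∈ F then η x else τ x

theorem measurable_flip (x : ℤ × ℤ) : Measurable (flip x) := by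
  classical
  refine measurable_pi_lambda _ (fun y => ?_)
  unfold flip
  by_cases h : y = x
  · subst h
    simp only [Function.update_self]
    exact (measurable_of_finite (fun b : Bool => !b)).comp (measurable_pi_apply y)
  · simp only [Function.update_of_ne h]
    exact measurable_pi_apply y

theorem measurable_recF (F : Finset (ℤ × ℤ)) (η : Om) : Measurable (recF F η) := by
  classical
  refine measurable_pi_lambda _ (fun y => ?_)
  unfold recF
  by_cases h : y ∈ F
  · simp only [h, if_true]; exact measurable_const
  · simp only [h, if_false]; exact measurable_pi_apply y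

theorem recF_bound {P : Measure Om} {C : ℝ≥0∞}
    (hC : ∀ (x : ℤ × ℤ) (E : Set Om), MeasurableSet E → P (flip x ⁻¹' E) ≤ C * P E)
    (η : Om) (F : Finset (ℤ × ℤ)) : ∀ E : Set Om, MeasurableSet E →
      P (recF F η ⁻¹' E) ≤ (1 + C) ^ F.card * P E := by
  classical
  induction F using Finset.induction_on with
  | empty =>
    intro E _
    have : recF ∅ η ⁻¹' E = E := by
      ext τ
      have e : recF ∅ η τ = τ := by funext x; simp [recF]
      simp only [Set.mem_preimage, e]
    rw [this]; simp
  | insert a F ha ih =>
    intro E hE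
    -- `recF (insert a F) η = recF F η ∘ update at a`, the update is the identity or a flip
    have hsub : recF (insert a F) η ⁻¹' E ⊆
        recF F η ⁻¹' E ∪ recF F η ⁻¹' (flip a ⁻¹' E) := by
      intro τ hτ
      rw [Set.mem_preimage] at hτ
      by_cases h : τ a = η a
      · left
        have e : recF (insert a F) η τ = recF F η τ := by
          funext x
          by_cases hxa : x = a
          · subst hxa; simp [recF, ha, h]
          · simp [recF, hxa]
        rw [Set.mem_preimage, ← e]; exact hτ
      · right
        have e : recF (insert a F) η τ = flip a (recF F η τ) := by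
          funext x
          by_cases hxa : x = a
          · subst hxa
            simp only [recF, Finset.mem_insert_self, if_true, flip, Function.update_self, ha,
              if_false]
            revert h
            cases τ x <;> cases η x <;> simp
          · simp [recF, hxa, flip]
        rw [Set.mem_preimage, Set.mem_preimage, ← e]; exact hτ
    calc P (recF (insert a F) η ⁻¹' E) ≤ P (recF F η ⁻¹' E) + P (recF F η ⁻¹' (flip a ⁻¹' E)) :=
          (measure_mono hsub).trans (measure_union_le _ _)
      _ ≤ (1 + C) ^ F.card * P E + (1 + C) ^ F.card * P (flip a ⁻¹' E) :=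
          add_le_add (ih E hE) (ih _ (measurable_flip a hE))
      _ ≤ (1 + C) ^ F.card * P E + (1 + C) ^ F.card * (C * P E) := by
          gcongr; exact hC a E hE
      _ = (1 + C) ^ (insert a F).card * P E := by
          rw [Finset.card_insert_of_notMem ha, pow_succ]; ring

/-- The hypotheses of the Burton–Keane theorem from translation invariance, mixing of local events
along one sequence and the bound for a single flip. -/
theorem hyp_of_flip {P : Measure Om} (hP : IsProbabilityMeasure P)
    (inv : ∀ c, P.map (sh c) = P) {C : ℝ≥0∞} (hC : C ≠ ⊤)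
    (hfl : ∀ (x : ℤ × ℤ) (E : Set Om), MeasurableSet E → P (flip x ⁻¹' E) ≤ C * P E)
    (mix : ∃ z : ℕ → ℤ × ℤ, ∀ (B : Finset (ℤ × ℤ)) (A A' : Set Om), Loc B A → Loc B A' →
      Tendsto (fun k => P (A ∩ sh (z k) ⁻¹' A')) atTop (𝓝 (P A * P A'))) : Hyp P where
  prob := hP
  inv := fun c B A hA => by
    conv_rhs => rw [← inv c]
    rw [Measure.map_apply (measurable_sh c) hA.meas]
  fe := fun n => by
    refine ⟨(1 + C) ^ (HF n).card, ENNReal.pow_ne_top (by simp [hC]), fun η B A hA => ?_⟩
    have e : recol n η = recF (HF n) η := by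
      funext τ x
      by_cases hx : x ∈ H n
      · rw [recol_in hx]; simp [recF, mem_HF, hx]
      · rw [recol_out hx]; simp [recF, mem_HF, hx]
    rw [e]
    exact recF_bound hfl η _ A hA.meas
  mix := mix

/-- **Burton–Keane for a finite window.** -/
theorem bk_window {P : Measure Om} (h : Hyp P) (B : Finset (ℤ × ℤ)) :
    Tendsto (fun R : ℕ => P (⋃ x ∈ B, ⋃ y ∈ B, Two x y R)) atTop (𝓝 0) := by
  have h1 : ∀ R : ℕ, P (⋃ x ∈ B, ⋃ y ∈ B, Two x y R) ≤ ∑ x ∈ B, ∑ y ∈ B, P (Two x y R) := by
    intro R
    refine (measure_biUnion_finset_le _ _).trans (Finset.sum_le_sum (fun x _ => ?_))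
    exact measure_biUnion_finset_le _ _
  have h2 : Tendsto (fun R : ℕ => ∑ x ∈ B, ∑ y ∈ B, P (Two x y R)) atTop (𝓝 0) := by
    have : Tendsto (fun R : ℕ => ∑ x ∈ B, ∑ y ∈ B, P (Two x y R)) atTop
        (𝓝 (∑ _x ∈ B, ∑ _y ∈ B, 0)) :=
      tendsto_finsetSum _ (fun x _ => tendsto_finsetSum _ (fun y _ => bk h x y))
    simpa using this
  exact tendsto_of_tendsto_of_tendsto_of_le_of_le tendsto_const_nhds h2
    (fun _ => zero_le) h1

/-- Connections in a larger region are already present in the hexagon, outside `Two`. -/
theorem con_of_con {τ : Om} {A : Set (ℤ × ℤ)} {R : ℤ} (hA : H R ⊆ A) {x y : ℤ × ℤ}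
    (hx : x ∈ H R) (hy : y ∈ H R) (hT : τ ∉ Two x y R) :
    Con τ A x y ↔ Con τ (H R) x y := by
  refine ⟨fun h => ?_, fun h => h.mono hA⟩
  by_contra hcon
  apply hT
  have key : ∀ u v, u ∈ H R → v ∈ H R → Con τ A u v → ¬ Con τ (H R) u v →
      ∃ s ∈ Bd R, Con τ (H R) u s := by
    intro u v hu hv huv hn
    rcases huv.exit (B := H R) hu with h1 | ⟨p, q, h1, h2, h3, h4, -, -⟩
    · exact absurd (h1.mono (fun z hz => hz.2)) hn
    · refine ⟨p, ⟨h2, fun hp => h4 ?_⟩, h1.mono (fun z hz => hz.2)⟩
      have := step_H hp h3.1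
      rwa [sub_add_cancel] at this
  exact ⟨key x y hx hy h hcon, key y x hy hx h.symm (fun hc => hcon hc.symm), hcon⟩

end Vale.Agent.P153.BK
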