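import Vale.Agent.P153.BK.Local

/-!
The probability of a trifurcation at scale `R` tends to zero, hence a hexagon has at most two
unbounded outer components.
-/

namespace Vale.Agent.P153.BK

open Relation MeasureTheory Filter Topology Set
open scoped ENNReal symmDiff

/-- The hexagon as a finset. -/
noncomputable def HF (n : ℤ) : Finset (ℤ × ℤ) :=
  (Finset.Icc (-n) n ×ˢ Finset.Icc (-n) n).filter fun x => -n ≤ x.1 + x.2 ∧ x.1 + x.2 ≤ n

theorem mem_HF {n : ℤ} {x : ℤ × ℤ} : x ∈ HF n ↔ x ∈ H n := by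
  simp only [HF, Finset.mem_filter, Finset.mem_product, Finset.mem_Icc, mem_H]
  tauto

theorem con_congr {τ τ' : Om} {A : Set (ℤ × ℤ)} (h : ∀ x ∈ A, τ x = τ' x) (x y : ℤ × ℤ) :
    Con τ A x y ↔ Con τ' A x y :=
  ⟨fun hc => hc.congr h, fun hc => hc.congr (fun z hz => (h z hz).symm)⟩

theorem bi_congr {τ τ' : Om} {x y : ℤ × ℤ} (hx : τ x = τ' x) (hy : τ y = τ' y) :
    Bi τ x y ↔ Bi τ' x y := by unfold Bi; rw [hx, hy]

theorem H_mono {m n : ℤ} (h : m ≤ n) : H m ⊆ H n := by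
  intro x hx; rw [mem_H] at hx ⊢; omega

theorem tri_imp {n R : ℤ} (hnR : n ≤ R) {τ τ' : Om} (h : ∀ x ∈ H R, τ x = τ' x)
    (ht : Tri n R τ) : Tri n R τ' := by
  obtain ⟨h1, a, h2, h3, h4, h5⟩ := ht
  have hn : ∀ x ∈ H n, τ x = τ' x := fun x hx => h x (H_mono hnR hx)
  have hd : ∀ x ∈ H R \ H n, τ x = τ' x := fun x hx => h x hx.1
  refine ⟨fun x hx => (h1 x hx).congr hn, a, h2, fun i => ?_, fun i => ?_, fun i j hij => ?_⟩
  · obtain ⟨b, hb, hbi⟩ := h3 i
    exact ⟨b, hb, (bi_congr (hd _ (h2 i)) (hn b hb)).1 hbi⟩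
  · obtain ⟨s, hs, hc⟩ := h4 i
    exact ⟨s, hs, hc.congr hd⟩
  · rw [← con_congr hd]; exact h5 i j hij

theorem tri_loc {n R : ℤ} (hnR : n ≤ R) : Loc (HF R) {τ | Tri n R τ} := fun _ _ h =>
  ⟨tri_imp hnR (fun x hx => h x (mem_HF.2 hx)),
    tri_imp hnR (fun x hx => (h x (mem_HF.2 hx)).symm)⟩

/-- The boundary as a finset. -/
noncomputable def BdF (N : ℤ) : Finset (ℤ × ℤ) := by
  classical exact (HF N).filter fun x => x ∉ H (N - 1)

theorem mem_BdF {N : ℤ} (x : ℤ × ℤ) : x ∈ BdF N ↔ x ∈ Bd N := by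
  classical
  simp only [BdF, Finset.mem_filter, mem_HF, Bd]
  exact Iff.rfl

theorem card_BdF {N : ℤ} (hN : 0 ≤ N) : ((BdF N).card : ℤ) ≤ 6 * (2 * N + 1) := by
  classical
  set I := Finset.Icc (-N) N with hI
  have hIc : (I.card : ℤ) = 2 * N + 1 := by rw [hI, Int.card_Icc]; omega
  have hsub : BdF N ⊆ I.image (fun j => (N, j)) ∪ I.image (fun j => (-N, j)) ∪
      I.image (fun j => (j, N)) ∪ I.image (fun j => (j, -N)) ∪
      I.image (fun j => (j, N - j)) ∪ I.image (fun j => (j, -N - j)) := by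
    intro x hx
    rw [mem_BdF] at hx
    obtain ⟨x1, x2⟩ := x
    obtain ⟨h1, h2⟩ := hx
    simp only [mem_H] at h1 h2
    simp only [Finset.mem_union, Finset.mem_image, hI, Finset.mem_Icc, Prod.mk.injEq]
    by_cases c1 : x1 = N
    · left; left; left; left; left; exact ⟨x2, by omega, by omega, rfl⟩
    by_cases c2 : x1 = -N
    · left; left; left; left; right; exact ⟨x2, by omega, by omega, rfl⟩
    by_cases c3 : x2 = N
    · left; left; left; right; exact ⟨x1, by omega, rfl, by omega⟩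
    by_cases c4 : x2 = -N
    · left; left; right; exact ⟨x1, by omega, rfl, by omega⟩
    by_cases c5 : x1 + x2 = N
    · left; right; exact ⟨x1, by omega, rfl, by omega⟩
    · right; exact ⟨x1, by omega, rfl, by omega⟩
  have h1 := Finset.card_le_card hsub
  have h2 : ∀ f : ℤ → ℤ × ℤ, (I.image f).card ≤ I.card := fun f => Finset.card_image_le
  have h3 := Finset.card_union_le (I.image (fun j => (N, j)) ∪ I.image (fun j => (-N, j)) ∪
      I.image (fun j => (j, N)) ∪ I.image (fun j => (j, -N)) ∪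
      I.image (fun j => (j, N - j))) (I.image (fun j => (j, -N - j)))
  have h4 := Finset.card_union_le (I.image (fun j => (N, j)) ∪ I.image (fun j => (-N, j)) ∪
      I.image (fun j => (j, N)) ∪ I.image (fun j => (j, -N))) (I.image (fun j => (j, N - j)))
  have h5 := Finset.card_union_le (I.image (fun j => (N, j)) ∪ I.image (fun j => (-N, j)) ∪
      I.image (fun j => (j, N))) (I.image (fun j => (j, -N)))
  have h6 := Finset.card_union_le (I.image (fun j => (N, j)) ∪ I.image (fun j => (-N, j)))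
      (I.image (fun j => (j, N)))
  have h7 := Finset.card_union_le (I.image (fun j => (N, j))) (I.image (fun j => (-N, j)))
  have g1 := h2 (fun j => (N, j))
  have g2 := h2 (fun j => (-N, j))
  have g3 := h2 (fun j => (j, N))
  have g4 := h2 (fun j => (j, -N))
  have g5 := h2 (fun j => (j, N - j))
  have g6 := h2 (fun j => (j, -N - j))
  omega

/-- The bound on the probability of a trifurcation. -/
theorem tri_bound {P : Measure Om} (h : Hyp P) {n : ℤ} (hn : 0 ≤ n) (K : ℕ) :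
    (K : ℝ≥0∞) ^ 2 * P {τ | Tri n (2 * (2 * (2 * n + 1) * K + n + 1) + 1) τ} ≤
      ENNReal.ofReal (6 * (2 * (2 * (2 * n + 1) * K + n + 1) + 1)) := by
  classical
  have := h.prob
  set N : ℤ := 2 * (2 * n + 1) * K + n + 1 with hN
  have hN0 : 0 ≤ N := by positivity
  have hNn : n ≤ N := by
    have : 0 ≤ 2 * (2 * n + 1) * (K : ℤ) := by positivity
    omega
  set C : Finset (ℤ × ℤ) := (Finset.range K ×ˢ Finset.range K).image
    (fun p : ℕ × ℕ => ((2 * n + 1) * (p.1 : ℤ), (2 * n + 1) * (p.2 : ℤ))) with hCdef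
  have hCcard : C.card = K ^ 2 := by
    rw [hCdef, Finset.card_image_of_injective, Finset.card_product, Finset.card_range, sq]
    intro p q hpq
    simp only [Prod.mk.injEq, mul_eq_mul_left_iff] at hpq
    obtain ⟨h1, h2⟩ := hpq
    have e1 : p.1 = q.1 := by
      rcases h1 with h | h
      · exact_mod_cast h
      · omega
    have e2 : p.2 = q.2 := by
      rcases h2 with h | h
      · exact_mod_cast h
      · omega
    exact Prod.ext e1 e2
  have hCmem : ∀ c ∈ C, ∃ i j : ℤ, 0 ≤ i ∧ i < K ∧ 0 ≤ j ∧ j < K ∧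
      c = ((2 * n + 1) * i, (2 * n + 1) * j) := by
    intro c hc
    simp only [hCdef, Finset.mem_image, Finset.mem_product, Finset.mem_range] at hc
    obtain ⟨p, ⟨hp1, hp2⟩, rfl⟩ := hc
    exact ⟨p.1, p.2, by positivity, by exact_mod_cast hp1, by positivity, by exact_mod_cast hp2,
      rfl⟩
  have hbnd : ∀ i : ℤ, 0 ≤ i → i < K → 0 ≤ (2 * n + 1) * i ∧
      (2 * n + 1) * i ≤ (2 * n + 1) * K - (2 * n + 1) := by
    intro i h1 h2
    refine ⟨by positivity, ?_⟩
    nlinarith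
  have hC : ∀ c ∈ C, ∀ x ∈ Bx n c, x ∈ H (N - 1) := by
    intro c hc x hx
    obtain ⟨i, j, hi0, hiK, hj0, hjK, rfl⟩ := hCmem c hc
    obtain ⟨a1, a2⟩ := hbnd i hi0 hiK
    obtain ⟨b1, b2⟩ := hbnd j hj0 hjK
    change x - _ ∈ H n at hx
    obtain ⟨x1, x2⟩ := x
    simp only [mem_H, Prod.mk_sub_mk] at hx ⊢
    generalize (2 * n + 1) * i = u at *
    generalize (2 * n + 1) * j = v at *
    have : 2 * (2 * n + 1) * (K : ℤ) = 2 * ((2 * n + 1) * K) := by ring
    rw [this] at hN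
    generalize (2 * n + 1) * (K : ℤ) = w at *
    omega
  have hdis : ∀ c ∈ C, ∀ c' ∈ C, c ≠ c' → ∀ x ∈ Bx n c, x ∉ Bx n c' := by
    intro c hc c' hc' hne x hx hx'
    obtain ⟨i, j, hi0, hiK, hj0, hjK, rfl⟩ := hCmem c hc
    obtain ⟨i', j', hi0', hiK', hj0', hjK', rfl⟩ := hCmem c' hc'
    change x - _ ∈ H n at hx
    change x - _ ∈ H n at hx'
    obtain ⟨x1, x2⟩ := x
    simp only [mem_H, Prod.mk_sub_mk] at hx hx'
    have hcase : ∀ a b : ℤ, -n ≤ x1 - (2 * n + 1) * a → x1 - (2 * n + 1) * a ≤ n →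
        -n ≤ x1 - (2 * n + 1) * b → x1 - (2 * n + 1) * b ≤ n → a = b := by
      intro a b h1 h2 h3 h4
      by_contra hab
      rcases lt_or_gt_of_ne hab with hlt | hgt
      · nlinarith
      · nlinarith
    have hcase2 : ∀ a b : ℤ, -n ≤ x2 - (2 * n + 1) * a → x2 - (2 * n + 1) * a ≤ n →
        -n ≤ x2 - (2 * n + 1) * b → x2 - (2 * n + 1) * b ≤ n → a = b := by
      intro a b h1 h2 h3 h4
      by_contra hab
      rcases lt_or_gt_of_ne hab with hlt | hgt
      · nlinarith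
      · nlinarith
    apply hne
    rw [hcase i i' hx.1 hx.2.1 hx'.1 hx'.2.1, hcase2 j j' hx.2.2.1 hx.2.2.2.1 hx'.2.2.1
      hx'.2.2.2.1]
  have hR : ∀ c ∈ C, ∀ x ∈ H N, x - c ∈ H (2 * N + 1 - 1) := by
    intro c hc x hx
    have hcN : c ∈ H (N - 1) := hC c hc c (mem_Bx_self hn c)
    obtain ⟨x1, x2⟩ := x
    obtain ⟨c1, c2⟩ := c
    simp only [mem_H, Prod.mk_sub_mk] at hx hcN ⊢
    omega
  have hcount : ∀ τ : Om, ((C.filter (fun c => Tri n (2 * N + 1) (sh c τ))).card : ℝ≥0∞) ≤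
      ENNReal.ofReal (6 * (2 * N + 1)) := by
    intro τ
    have h1 := tri_card hn C (BdF N) τ mem_BdF hC hdis hR
      (C.filter (fun c => Tri n (2 * N + 1) (sh c τ))) (Finset.filter_subset _ _)
      (fun t ht => (Finset.mem_filter.1 ht).2)
    have h2 := card_BdF hN0
    have h3 : ((C.filter (fun c => Tri n (2 * N + 1) (sh c τ))).card : ℝ) ≤ 6 * (2 * N + 1) := by
      have : ((C.filter (fun c => Tri n (2 * N + 1) (sh c τ))).card : ℤ) ≤ 6 * (2 * N + 1) := by
        omega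
      exact_mod_cast this
    rw [← ENNReal.ofReal_natCast]
    exact ENNReal.ofReal_le_ofReal h3
  have hmeas : MeasurableSet {τ : Om | Tri n (2 * N + 1) τ} :=
    (tri_loc (by omega : n ≤ 2 * N + 1)).meas
  have hsum : ∫⁻ τ, ((C.filter (fun c => Tri n (2 * N + 1) (sh c τ))).card : ℝ≥0∞) ∂P =
      (K : ℝ≥0∞) ^ 2 * P {τ | Tri n (2 * N + 1) τ} := by
    have e1 : ∀ τ : Om, ((C.filter (fun c => Tri n (2 * N + 1) (sh c τ))).card : ℝ≥0∞) =
        ∑ c ∈ C, (sh c ⁻¹' {τ : Om | Tri n (2 * N + 1) τ}).indicator (fun _ => 1) τ := by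
      intro τ
      rw [Finset.card_filter]
      push_cast
      refine Finset.sum_congr rfl (fun c _ => ?_)
      by_cases hc : Tri n (2 * N + 1) (sh c τ)
      · rw [Set.indicator_of_mem (show τ ∈ sh c ⁻¹' {τ : Om | Tri n (2 * N + 1) τ} from hc)]
        simp [hc]
      · rw [Set.indicator_of_notMem (show τ ∉ sh c ⁻¹' {τ : Om | Tri n (2 * N + 1) τ} from hc)]
        simp [hc]
    simp_rw [e1]
    rw [lintegral_finsetSum _ (fun c _ => (measurable_const.indicator
      ((measurable_sh c) hmeas)))]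
    simp_rw [lintegral_indicator_const ((measurable_sh _) hmeas), one_mul]
    rw [Finset.sum_congr rfl (fun c _ => h.inv' c hmeas), Finset.sum_const, hCcard, nsmul_eq_mul]
    push_cast
    rfl
  have hfin : (K : ℝ≥0∞) ^ 2 * P {τ | Tri n (2 * N + 1) τ} ≤ ENNReal.ofReal (6 * (2 * N + 1)) := by
    rw [← hsum]
    calc _ ≤ ∫⁻ _, ENNReal.ofReal (6 * (2 * N + 1)) ∂P := lintegral_mono hcount
      _ = _ := by simp
  convert hfin using 3
  rw [hN]; push_cast; ring

/-- Three outer components of the hexagon of radius `n` reach distance `R`. -/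
def Arms (n R : ℤ) (τ : Om) : Prop :=
  ∃ a : Fin 3 → ℤ × ℤ, (∀ i, a i ∉ H n) ∧ (∀ i, ∃ b ∈ H n, Step (a i) b) ∧
    (∀ i, ∃ s ∈ Bd R, Con τ (H R \ H n) (a i) s) ∧
    ∀ i j, i ≠ j → ¬ Con τ (H R \ H n) (a i) (a j)

theorem arms_tri {n R : ℤ} (hn : 2 ≤ n) (hnR : n < R) {τ : Om} (h : Arms n R τ) :
    ∃ ε v, Tri n R (recol n (pat ε v) τ) := by
  obtain ⟨a, h1, h2, h3, h4⟩ := h
  have hA : ∀ x, x ∉ H n → (∃ b ∈ H n, Step x b) → x ∈ H R \ H n := by
    rintro x hx ⟨b, hb, hst⟩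
    refine ⟨?_, hx⟩
    have := step_H hb (show Step b x by unfold Step at hst ⊢; omega)
    exact H_mono (by omega) this
  obtain ⟨ε, v, g1, a', g2, g3, g4⟩ := exists_attach (τ := τ) (A := H R \ H n) hn hA
    (fun x hx => hx.2) a h1 h2 (fun i j => by
      by_cases hij : i = j
      · exact Or.inl (by rw [hij])
      · exact Or.inr (h4 i j hij))
  have hcong : ∀ x ∈ H R \ H n, τ x = recol n (pat ε v) τ x := fun x hx => (recol_out hx.2).symm
  have haA : ∀ i, a i ∈ H R \ H n := fun i => hA _ (h1 i) (h2 i)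
  refine ⟨ε, v, g1, a', fun i => (g3 i).right_mem (haA i), g4, fun i => ?_, fun i j hij hc => ?_⟩
  · obtain ⟨s, hs, hc⟩ := h3 i
    exact ⟨s, hs, (g3 i).symm.trans (hc.congr hcong)⟩
  · apply h4 i j hij
    rw [con_congr hcong]
    exact (g3 i).trans (hc.trans (g3 j).symm)

/-- The recolourings by a pattern are finitely many. -/
theorem recol_pat_finite (n : ℤ) (ε : Bool) (v : ℤ × ℤ) : ∃ v' ∈ insert (n + 1, 0) (HF n),
    ∀ τ : Om, recol n (pat ε v) τ = recol n (pat ε v') τ := by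
  by_cases hv : v ∈ H n
  · exact ⟨v, Finset.mem_insert_of_mem (mem_HF.2 hv), fun τ => rfl⟩
  · refine ⟨(n + 1, 0), Finset.mem_insert_self _ _, fun τ => ?_⟩
    funext x
    by_cases hx : x ∈ H n
    · rw [recol_in hx, recol_in hx]
      have e1 : x ≠ v := fun h => hv (h ▸ hx)
      have e2 : x ≠ (n + 1, 0) := by
        rintro rfl
        rw [mem_H] at hx; simp only at hx; omega
      simp only [pat, e1, e2]
    · rw [recol_out hx, recol_out hx]

/-- Covering a set by finitely many recoloured sets. -/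
theorem measure_recol_cover {P : Measure Om} (h : Hyp P) (n : ℤ) : ∃ C : ℝ≥0∞, C ≠ ⊤ ∧
    ∀ (A E : Set Om), MeasurableSet E → (∀ τ ∈ A, ∃ ε v, recol n (pat ε v) τ ∈ E) →
      P A ≤ C * P E := by
  obtain ⟨C, hC, hfe⟩ := h.fe' n
  set F : Finset (Bool × (ℤ × ℤ)) := Finset.univ ×ˢ insert (n + 1, 0) (HF n) with hF
  refine ⟨F.card * C, ENNReal.mul_ne_top (ENNReal.natCast_ne_top _) hC, fun A E hE hA => ?_⟩
  have hsub : A ⊆ ⋃ p ∈ F, recol n (pat p.1 p.2) ⁻¹' E := by
    intro τ hτ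
    obtain ⟨ε, v, hv⟩ := hA τ hτ
    obtain ⟨v', hv', he⟩ := recol_pat_finite n ε v
    simp only [Set.mem_iUnion]
    refine ⟨(ε, v'), ?_, ?_⟩
    · rw [hF]; simp only [Finset.mem_product, Finset.mem_univ, true_and]; exact hv'
    · change recol n (pat ε v') τ ∈ E
      rw [← he]; exact hv
  calc P A ≤ P (⋃ p ∈ F, recol n (pat p.1 p.2) ⁻¹' E) := measure_mono hsub
    _ ≤ ∑ p ∈ F, P (recol n (pat p.1 p.2) ⁻¹' E) := measure_biUnion_finset_le _ _
    _ ≤ ∑ _p ∈ F, C * P E := Finset.sum_le_sum (fun p _ => hfe _ E hE)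
    _ = F.card * C * P E := by rw [Finset.sum_const, nsmul_eq_mul, mul_assoc]

/-- Almost surely, at most two outer components of a hexagon reach every distance. -/
theorem arms_null {P : Measure Om} (h : Hyp P) {n : ℤ} (hn : 2 ≤ n) :
    P {τ | ∀ R, n < R → Arms n R τ} = 0 := by
  obtain ⟨C, hC, hcov⟩ := measure_recol_cover h n
  have hK : ∀ K : ℕ, P {τ | ∀ R, n < R → Arms n R τ} ≤
      C * P {τ | Tri n (2 * (2 * (2 * n + 1) * K + n + 1) + 1) τ} := by
    intro K
    have h0 : (0 : ℤ) ≤ 2 * (2 * n + 1) * K := by positivity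
    refine hcov _ _ (tri_loc (by omega)).meas (fun τ hτ => ?_)
    exact arms_tri hn (by omega) (hτ _ (by omega))
  have hlim : Tendsto (fun K : ℕ => P {τ | Tri n (2 * (2 * (2 * n + 1) * K + n + 1) + 1) τ})
      atTop (𝓝 0) := by
    have hb : ∀ K : ℕ, 1 ≤ K → P {τ | Tri n (2 * (2 * (2 * n + 1) * K + n + 1) + 1) τ} ≤
        ENNReal.ofReal ((60 * (2 * n + 1)) / K) := by
      intro K hK
      have hKr : (1 : ℝ) ≤ K := by exact_mod_cast hK
      have hnr : (2 : ℝ) ≤ n := by exact_mod_cast hn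
      have h1 := tri_bound h (show (0 : ℤ) ≤ n by omega) K
      have hK2 : (K : ℝ≥0∞) ^ 2 ≠ 0 := by
        simp only [ne_eq, pow_eq_zero_iff, OfNat.ofNat_ne_zero, not_false_eq_true,
          Nat.cast_eq_zero]
        omega
      have hK3 : (K : ℝ≥0∞) ^ 2 ≠ ⊤ := ENNReal.pow_ne_top (ENNReal.natCast_ne_top _)
      rw [mul_comm, ← ENNReal.le_div_iff_mul_le (Or.inl hK2) (Or.inl hK3)] at h1
      refine h1.trans ?_
      rw [← ENNReal.ofReal_natCast, ← ENNReal.ofReal_pow (by positivity),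
        ← ENNReal.ofReal_div_of_pos (by positivity)]
      apply ENNReal.ofReal_le_ofReal
      rw [div_le_div_iff₀ (by positivity) (by positivity)]
      have : 6 * (2 * (2 * (2 * (n : ℝ) + 1) * K + n + 1) + 1) ≤ 60 * (2 * n + 1) * K := by
        nlinarith
      nlinarith
    have hto : Tendsto (fun K : ℕ => ENNReal.ofReal ((60 * (2 * n + 1)) / K)) atTop (𝓝 0) := by
      rw [← ENNReal.ofReal_zero]
      exact ENNReal.tendsto_ofReal (tendsto_const_div_atTop_nhds_zero_nat _)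
    exact tendsto_of_tendsto_of_tendsto_of_le_of_le' tendsto_const_nhds hto
      (Eventually.of_forall (fun _ => zero_le)) (eventually_atTop.2 ⟨1, hb⟩)
  have hlim2 := ENNReal.Tendsto.const_mul hlim (Or.inr hC)
  rw [mul_zero] at hlim2
  exact le_antisymm (ge_of_tendsto' hlim2 hK) zero_le

end Vale.Agent.P153.BK
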