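import Vale.Agent.P153.BK.Hex

/-!
Three outer vertices in different outer components can be attached to a connected colouring of the
hexagon.
-/

namespace Vale.Agent.P153.BK

open Relation

theorem out_cases {n b1 b2 : ℤ} {x : ℤ × ℤ} (hb : ((b1, b2) : ℤ × ℤ) ∈ H n)
    (hx : x ∉ H n) (h : Step x (b1, b2)) :
    (x = (b1 + 1, b2) ∧ (b1 = n ∨ b1 + b2 = n)) ∨
    (x = (b1, b2 + 1) ∧ (b2 = n ∨ b1 + b2 = n)) ∨
    (x = (b1 - 1, b2 + 1) ∧ (b1 = -n ∨ b2 = n)) ∨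
    (x = (b1 - 1, b2) ∧ (b1 = -n ∨ b1 + b2 = -n)) ∨
    (x = (b1, b2 - 1) ∧ (b2 = -n ∨ b1 + b2 = -n)) ∨
    (x = (b1 + 1, b2 - 1) ∧ (b1 = n ∨ b2 = -n)) := by
  obtain ⟨x1, x2⟩ := x
  simp only [mem_H] at hb hx
  simp only [Step] at h
  rcases h with ⟨h1, h2⟩ | ⟨h1, h2⟩ | ⟨h1, h2⟩ | ⟨h1, h2⟩ | ⟨h1, h2⟩ | ⟨h1, h2⟩
  · right; right; right; left
    exact ⟨Prod.ext (by simp only; omega) (by simp only; omega), by omega⟩
  · left
    exact ⟨Prod.ext (by simp only; omega) (by simp only; omega), by omega⟩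
  · right; right; right; right; left
    exact ⟨Prod.ext (by simp only; omega) (by simp only; omega), by omega⟩
  · right; left
    exact ⟨Prod.ext (by simp only; omega) (by simp only; omega), by omega⟩
  · right; right; left
    exact ⟨Prod.ext (by simp only; omega) (by simp only; omega), by omega⟩
  · right; right; right; right; right
    exact ⟨Prod.ext (by simp only; omega) (by simp only; omega), by omega⟩

/-- Two outer neighbours of a vertex of the hexagon are adjacent or have a common outer neighbour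
next to the vertex. -/
theorem outer_pair {n : ℤ} (hn : 1 ≤ n) {b x y : ℤ × ℤ} (hb : b ∈ H n) (hx : x ∉ H n)
    (hy : y ∉ H n) (hxb : Step x b) (hyb : Step y b) (hxy : x ≠ y) :
    Step x y ∨ ∃ w, w ∉ H n ∧ Step w b ∧ Step w x ∧ Step w y := by
  obtain ⟨b1, b2⟩ := b
  have hb' := hb
  rw [mem_H] at hb'
  simp only at hb'
  have e1 : b1 = n ∨ b1 + b2 = n → ((b1 + 1, b2) : ℤ × ℤ) ∉ H n := by
    rw [mem_H]; simp only; omega
  have e2 : b2 = n ∨ b1 + b2 = n → ((b1, b2 + 1) : ℤ × ℤ) ∉ H n := by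
    rw [mem_H]; simp only; omega
  have e3 : b1 = -n ∨ b2 = n → ((b1 - 1, b2 + 1) : ℤ × ℤ) ∉ H n := by
    rw [mem_H]; simp only; omega
  have e4 : b1 = -n ∨ b1 + b2 = -n → ((b1 - 1, b2) : ℤ × ℤ) ∉ H n := by
    rw [mem_H]; simp only; omega
  have e5 : b2 = -n ∨ b1 + b2 = -n → ((b1, b2 - 1) : ℤ × ℤ) ∉ H n := by
    rw [mem_H]; simp only; omega
  have e6 : b1 = n ∨ b2 = -n → ((b1 + 1, b2 - 1) : ℤ × ℤ) ∉ H n := by
    rw [mem_H]; simp only; omega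
  rcases out_cases hb hx hxb with ⟨rfl, h1⟩ | ⟨rfl, h1⟩ | ⟨rfl, h1⟩ | ⟨rfl, h1⟩ | ⟨rfl, h1⟩ |
    ⟨rfl, h1⟩ <;>
  rcases out_cases hb hy hyb with ⟨rfl, h2⟩ | ⟨rfl, h2⟩ | ⟨rfl, h2⟩ | ⟨rfl, h2⟩ | ⟨rfl, h2⟩ |
    ⟨rfl, h2⟩ <;>
  first
  | exact absurd rfl hxy
  | (left; simp [Step]; done)
  | (exfalso; clear e1 e2 e3 e4 e5 e6 hx hy hxb hyb hxy hb; omega)
  | (right; refine ⟨(b1 + 1, b2), e1 ?_, ?_, ?_, ?_⟩
     · omega
     · simp [Step]
     · simp [Step]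
     · simp [Step])
  | (right; refine ⟨(b1, b2 + 1), e2 ?_, ?_, ?_, ?_⟩
     · omega
     · simp [Step]
     · simp [Step]
     · simp [Step])
  | (right; refine ⟨(b1 - 1, b2 + 1), e3 ?_, ?_, ?_, ?_⟩
     · omega
     · simp [Step]
     · simp [Step]
     · simp [Step])
  | (right; refine ⟨(b1 - 1, b2), e4 ?_, ?_, ?_, ?_⟩
     · omega
     · simp [Step]
     · simp [Step]
     · simp [Step])
  | (right; refine ⟨(b1, b2 - 1), e5 ?_, ?_, ?_, ?_⟩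
     · omega
     · simp [Step]
     · simp [Step]
     · simp [Step])
  | (right; refine ⟨(b1 + 1, b2 - 1), e6 ?_, ?_, ?_, ?_⟩
     · omega
     · simp [Step]
     · simp [Step]
     · simp [Step])

/-- At most two pairwise non-adjacent outer neighbours. -/
theorem outer_triple {n : ℤ} (hn : 1 ≤ n) {b x y z : ℤ × ℤ} (hb : b ∈ H n) (hx : x ∉ H n)
    (hy : y ∉ H n) (hz : z ∉ H n) (hxb : Step x b) (hyb : Step y b) (hzb : Step z b)
    (hxy : ¬ Step x y) (hzy : ¬ Step z y) (nxy : x ≠ y) (nzy : z ≠ y) : x = z := by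
  obtain ⟨b1, b2⟩ := b
  have hb' := hb
  rw [mem_H] at hb'
  simp only at hb'
  rcases out_cases hb hy hyb with ⟨rfl, h1⟩ | ⟨rfl, h1⟩ | ⟨rfl, h1⟩ | ⟨rfl, h1⟩ | ⟨rfl, h1⟩ |
    ⟨rfl, h1⟩ <;>
  rcases out_cases hb hx hxb with ⟨rfl, h2⟩ | ⟨rfl, h2⟩ | ⟨rfl, h2⟩ | ⟨rfl, h2⟩ | ⟨rfl, h2⟩ |
    ⟨rfl, h2⟩ <;>
  first
  | exact absurd rfl nxy
  | (exfalso; apply hxy; simp [Step]; done)
  | (exfalso; clear hxy hzy nxy nzy hx hy hz hxb hyb hzb hb; omega)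
  | (rcases out_cases hb hz hzb with ⟨rfl, h3⟩ | ⟨rfl, h3⟩ | ⟨rfl, h3⟩ | ⟨rfl, h3⟩ | ⟨rfl, h3⟩ |
      ⟨rfl, h3⟩ <;>
     first
     | rfl
     | exact absurd rfl nzy
     | (exfalso; apply hzy; simp [Step]; done)
     | (exfalso; clear hxy hzy nxy nzy hx hy hz hxb hyb hzb hb; omega))

section

variable {n : ℤ} {τ : ℤ × ℤ → Bool} {A : Set (ℤ × ℤ)}

theorem consistent_at (hn : 1 ≤ n)
    (hA : ∀ x, x ∉ H n → (∃ b ∈ H n, Step x b) → x ∈ A)
    (a b : Fin 3 → ℤ × ℤ) (ha : ∀ i, a i ∉ H n) (hbH : ∀ i, b i ∈ H n)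
    (hab : ∀ i, Step (a i) (b i)) (hsep : ∀ i j, a i = a j ∨ ¬ Con τ A (a i) (a j))
    (b0 : ℤ × ℤ) : ∃ σ : Bool, ∀ i, b i = b0 →
      ∃ w, w ∉ H n ∧ Con τ A (a i) w ∧ Step w b0 ∧ τ w = σ := by
  have haA : ∀ i, a i ∈ A := fun i => hA _ (ha i) ⟨b i, hbH i, hab i⟩
  have hns : ∀ i j, τ (a i) ≠ τ (a j) → a i ≠ a j ∧ ¬ Step (a i) (a j) := by
    intro i j h
    refine ⟨fun h' => h (by rw [h']), fun hst => ?_⟩
    rcases hsep i j with h' | h'
    · exact h (by rw [h'])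
    · exact h' (Con.single ⟨hst, h⟩ (haA i) (haA j))
  -- one conflict
  have main : ∀ i j w, b i = b0 → b j = b0 → τ (a i) ≠ τ (a j) → w ∉ H n → Step w b0 →
      Step w (a i) → τ w = τ (a j) → ∃ σ : Bool, ∀ k, b k = b0 →
      ∃ w, w ∉ H n ∧ Con τ A (a k) w ∧ Step w b0 ∧ τ w = σ := by
    intro i j w hi hj hij hw hwb hwi hτw
    have hwA : w ∈ A := hA _ hw ⟨b i, hbH i, hi ▸ hwb⟩
    have hiw : Con τ A (a i) w :=
      (Con.single (A := A) (show Bi τ w (a i) from ⟨hwi, by rw [hτw]; exact hij.symm⟩) hwA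
        (haA i)).symm
    refine ⟨τ (a j), fun k hk => ?_⟩
    by_cases hkj : τ (a k) = τ (a j)
    · exact ⟨a k, ha k, Con.refl _ _ _, hk ▸ hab k, hkj⟩
    · obtain ⟨n1, n2⟩ := hns i j hij
      obtain ⟨n3, n4⟩ := hns k j hkj
      have : a i = a k := outer_triple hn (hi ▸ hbH i) (ha i) (ha j) (ha k) (hi ▸ hab i)
        (hj ▸ hab j) (hk ▸ hab k) n2 n4 n1 n3
      exact ⟨w, hw, this ▸ hiw, hwb, hτw⟩
  by_cases h : ∃ i j, b i = b0 ∧ b j = b0 ∧ τ (a i) ≠ τ (a j)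
  · obtain ⟨i, j, hi, hj, hij⟩ := h
    obtain ⟨n1, n2⟩ := hns i j hij
    rcases outer_pair hn (hi ▸ hbH i) (ha i) (ha j) (hi ▸ hab i) (hj ▸ hab j) n1 with h | h
    · exact absurd h n2
    · obtain ⟨w, hw, hwb, hwi, hwj⟩ := h
      by_cases hτ : τ w = τ (a j)
      · exact main i j w hi hj hij hw hwb hwi hτ
      · refine main j i w hj hi hij.symm hw hwb hwj ?_
        revert hτ hij
        cases τ w <;> cases τ (a j) <;> cases τ (a i) <;> simp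
  · by_cases h' : ∃ i, b i = b0
    · obtain ⟨i, hi⟩ := h'
      refine ⟨τ (a i), fun k hk => ⟨a k, ha k, Con.refl _ _ _, hk ▸ hab k, ?_⟩⟩
      by_contra hcon
      exact h ⟨k, i, hk, hi, hcon⟩
    · exact ⟨true, fun k hk => absurd ⟨k, hk⟩ h'⟩

theorem exists_consistent (hn : 1 ≤ n)
    (hA : ∀ x, x ∉ H n → (∃ b ∈ H n, Step x b) → x ∈ A)
    (a b : Fin 3 → ℤ × ℤ) (ha : ∀ i, a i ∉ H n) (hbH : ∀ i, b i ∈ H n)
    (hab : ∀ i, Step (a i) (b i)) (hsep : ∀ i j, a i = a j ∨ ¬ Con τ A (a i) (a j)) :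
    ∃ a' : Fin 3 → ℤ × ℤ, (∀ i, a' i ∉ H n) ∧ (∀ i, Con τ A (a i) (a' i)) ∧
      (∀ i, Step (a' i) (b i)) ∧ ∀ i j, b i = b j → τ (a' i) = τ (a' j) := by
  choose σ hσ using consistent_at hn hA a b ha hbH hab hsep
  choose a' h1 h2 h3 h4 using fun i => hσ (b i) i rfl
  exact ⟨a', h1, h2, h3, fun i j hij => by rw [h4 i, h4 j, hij]⟩

theorem exists_pat (b : Fin 3 → ℤ × ℤ) (hb : ∀ i, b i ∈ H n) (s : Fin 3 → Bool)
    (hs : ∀ i j, b i = b j → s i = s j) : ∃ ε v, ∀ i, pat ε v (b i) = !(s i) := by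
  set m : Fin 3 → Bool := fun i => xor (!(s i)) (decide ((b i).2 % 2 = 1)) with hm
  have hmeq : ∀ i j, b i = b j → m i = m j := by
    intro i j h; simp only [hm, h, hs i j h]
  have hmaj : ∀ m : Fin 3 → Bool, ∃ k ε, ∀ i, i ≠ k → m i = ε := by decide
  obtain ⟨k, ε, hk⟩ := hmaj m
  have key : ∀ i v, pat ε v (b i) = !(s i) ↔ xor ε (decide (b i = v)) = m i := by
    intro i v
    simp only [pat, hm]
    cases ε <;> cases decide (b i = v) <;> cases s i <;> cases decide ((b i).2 % 2 = 1) <;> simp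
  by_cases hke : m k = ε
  · refine ⟨ε, (n + 1, 0), fun i => ?_⟩
    rw [key]
    have : b i ≠ (n + 1, 0) := by
      intro h
      have := hb i
      rw [h, mem_H] at this
      simp only at this
      omega
    simp only [this, decide_false, Bool.xor_false]
    by_cases hik : i = k
    · rw [hik, hke]
    · exact (hk i hik).symm
  · refine ⟨ε, b k, fun i => ?_⟩
    rw [key]
    by_cases hik : b i = b k
    · rw [hmeq i k hik]
      simp only [hik, decide_true]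
      revert hke
      cases m k <;> cases ε <;> simp
    · simp only [hik, decide_false, Bool.xor_false]
      exact (hk i (fun h => hik (by rw [h]))).symm

end

/-- Replace the colours of `τ` in the hexagon by a pattern. -/
def recol (n : ℤ) (η τ : ℤ × ℤ → Bool) (x : ℤ × ℤ) : Bool :=
  if -n ≤ x.1 ∧ x.1 ≤ n ∧ -n ≤ x.2 ∧ x.2 ≤ n ∧ -n ≤ x.1 + x.2 ∧ x.1 + x.2 ≤ n then η x else τ x

theorem recol_in {n : ℤ} {η τ : ℤ × ℤ → Bool} {x : ℤ × ℤ} (h : x ∈ H n) :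
    recol n η τ x = η x := if_pos h

theorem recol_out {n : ℤ} {η τ : ℤ × ℤ → Bool} {x : ℤ × ℤ} (h : x ∉ H n) :
    recol n η τ x = τ x := if_neg h

/-- **Attachment.** Three outer vertices in different outer components (or equal) can be attached
to a connected recolouring of the hexagon. -/
theorem exists_attach {n : ℤ} {τ : ℤ × ℤ → Bool} {A : Set (ℤ × ℤ)} (hn : 2 ≤ n)
    (hA : ∀ x, x ∉ H n → (∃ b ∈ H n, Step x b) → x ∈ A) (hAH : ∀ x ∈ A, x ∉ H n)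
    (a : Fin 3 → ℤ × ℤ) (ha : ∀ i, a i ∉ H n) (hb : ∀ i, ∃ b ∈ H n, Step (a i) b)
    (hsep : ∀ i j, a i = a j ∨ ¬ Con τ A (a i) (a j)) :
    ∃ ε v, (∀ x ∈ H n, Con (recol n (pat ε v) τ) (H n) x (0, 0)) ∧
      ∃ a' : Fin 3 → ℤ × ℤ, (∀ i, a' i ∉ H n) ∧
        (∀ i, Con (recol n (pat ε v) τ) A (a i) (a' i)) ∧
        ∀ i, ∃ b ∈ H n, Bi (recol n (pat ε v) τ) (a' i) b := by
  choose b hbH hab using hb
  obtain ⟨a', h1, h2, h3, h4⟩ := exists_consistent (by omega) hA a b ha hbH hab hsep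
  obtain ⟨ε, v, hpat⟩ := exists_pat b hbH (fun i => τ (a' i)) h4
  refine ⟨ε, v, fun x hx => pat_con hn (fun y hy => recol_in hy) hx, a', h1, fun i => ?_,
    fun i => ⟨b i, hbH i, h3 i, ?_⟩⟩
  · exact (h2 i).congr (fun z hz => (recol_out (hAH z hz)).symm)
  · rw [recol_out (h1 i), recol_in (hbH i), hpat i]
    cases τ (a' i) <;> simp

end Vale.Agent.P153.BK
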