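import Mathlib.Data.Finset.Max
import Mathlib.Data.Finset.Prod
import Mathlib.Tactic

/-!
The Burton–Keane counting lemma in abstract form: in a connected finite structure with boundary
points `S` and disjoint trifurcation points `T` one has `#T ≤ #S`.
-/

namespace Vale.Agent.P153.BK

open Finset

variable {X : Type*} [DecidableEq X]

/-- Abstract trifurcation count.  `r t` is the relation of being joined after removal of `t`. -/
theorem trif_count (r : X → X → X → Prop) (hr : ∀ t, Equivalence (r t)) :
    ∀ (m : ℕ) (T S : Finset X), T.card = m → Disjoint T S →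
      (∀ t ∈ T, ∀ t' ∈ T, t ≠ t' → ∀ y ∈ T ∪ S, y ≠ t → y ≠ t' → ¬ r t y t' → r t' y t) →
      (∀ t ∈ T, ∃ a ∈ S, ∃ b ∈ S, ∃ c ∈ S, ¬ r t a b ∧ ¬ r t b c ∧ ¬ r t a c) →
      T.card ≤ S.card := by
  classical
  intro m
  induction m with
  | zero => intro T S h _ _ _; omega
  | succ m ih =>
    intro T S hm hTS hc h3
    have hTne : T.Nonempty := by rw [← Finset.card_pos]; omega
    -- a pair `(t, c)` maximising the number of points of `T` in the class of `c`
    obtain ⟨t0, ht0⟩ := hTne
    obtain ⟨a0, ha0, -⟩ := h3 t0 ht0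
    have hne : (T ×ˢ (T ∪ S)).Nonempty := ⟨(t0, a0), by simp [ht0, ha0]⟩
    obtain ⟨⟨t, c⟩, htc, hmax⟩ := Finset.exists_max_image
      ((T ×ˢ (T ∪ S)).filter (fun p => p.2 ≠ p.1))
      (fun p => ((T.erase p.1).filter (fun y => r p.1 p.2 y)).card)
      ⟨(t0, a0), by
        simp only [Finset.mem_filter, Finset.mem_product, Finset.mem_union]
        exact ⟨⟨ht0, Or.inr ha0⟩, fun h => Finset.disjoint_left.1 hTS ht0 (h ▸ ha0)⟩⟩
    simp only [Finset.mem_filter, Finset.mem_product, Finset.mem_union] at htc hmax
    obtain ⟨⟨ht, hcX⟩, hct⟩ := htc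
    have hall : ∀ t' ∈ T, t' ≠ t → r t c t' := by
      intro t' ht' htt'
      by_contra hcon
      have hle := hmax (t', t) ⟨⟨ht', Or.inl ht⟩, fun h => htt' h.symm⟩
      have hsub : insert t ((T.erase t).filter (fun y => r t c y)) ⊆
          (T.erase t').filter (fun y => r t' t y) := by
        intro y hy
        rw [Finset.mem_insert] at hy
        rcases hy with rfl | hy
        · simp only [Finset.mem_filter, Finset.mem_erase]
          exact ⟨⟨fun h => htt' h.symm, ht⟩, (hr _).refl _⟩
        · simp only [Finset.mem_filter, Finset.mem_erase] at hy ⊢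
          obtain ⟨⟨hyt, hyT⟩, hcy⟩ := hy
          have hyt' : y ≠ t' := by rintro rfl; exact hcon hcy
          refine ⟨⟨hyt', hyT⟩, ?_⟩
          refine (hr _).symm (hc t ht t' ht' (fun h => htt' h.symm) y
            (Finset.mem_union_left _ hyT) hyt hyt' ?_)
          intro h
          exact hcon ((hr _).trans hcy h)
      have h1 := Finset.card_le_card hsub
      rw [Finset.card_insert_of_notMem (by simp)] at h1
      simp only at hle
      omega
    -- two boundary points in other classes
    obtain ⟨s1, hs1, s2, hs2, hcs1, hcs2, hs12⟩ : ∃ s1 ∈ S, ∃ s2 ∈ S, ¬ r t c s1 ∧ ¬ r t c s2 ∧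
        ¬ r t s1 s2 := by
      obtain ⟨a, ha, b, hb, d, hd, hab, hbd, had⟩ := h3 t ht
      by_cases h1 : r t c a
      · refine ⟨b, hb, d, hd, ?_, ?_, hbd⟩
        · intro h; exact hab ((hr _).trans ((hr _).symm h1) h)
        · intro h; exact had ((hr _).trans ((hr _).symm h1) h)
      · by_cases h2 : r t c b
        · refine ⟨a, ha, d, hd, h1, ?_, had⟩
          intro h; exact hbd ((hr _).trans ((hr _).symm h2) h)
        · exact ⟨a, ha, b, hb, h1, h2, hab⟩
    have hne12 : s1 ≠ s2 := by rintro rfl; exact hs12 ((hr _).refl _)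
    have htS : t ∉ S := Finset.disjoint_left.1 hTS ht
    -- the reduced structure
    set S' := insert t ((S.erase s1).erase s2) with hS'
    have hcardS : S'.card + 1 = S.card := by
      rw [hS', Finset.card_insert_of_notMem (by
        intro h; exact htS (Finset.mem_of_mem_erase (Finset.mem_of_mem_erase h)))]
      rw [Finset.card_erase_of_mem (by simp [hs2, hne12.symm]), Finset.card_erase_of_mem hs1]
      have : 2 ≤ S.card := by
        have : ({s1, s2} : Finset X) ⊆ S := by
          intro x hx; simp only [Finset.mem_insert, Finset.mem_singleton] at hx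
          rcases hx with rfl | rfl <;> assumption
        have := Finset.card_le_card this
        rwa [Finset.card_pair hne12] at this
      omega
    have hcardT : (T.erase t).card = m := by rw [Finset.card_erase_of_mem ht]; omega
    have hsub' : T.erase t ∪ S' ⊆ T ∪ S := by
      intro y hy
      simp only [hS', Finset.mem_union, Finset.mem_erase, Finset.mem_insert] at hy ⊢
      rcases hy with ⟨_, h⟩ | rfl | ⟨_, _, h⟩
      · exact Or.inl h
      · exact Or.inl ht
      · exact Or.inr h
    have key := ih (T.erase t) S' hcardT ?_ ?_ ?_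
    · rw [Finset.card_erase_of_mem ht] at key
      omega
    · rw [Finset.disjoint_left]
      intro y hy hy'
      simp only [hS', Finset.mem_erase, Finset.mem_insert] at hy hy'
      rcases hy' with rfl | ⟨_, _, h⟩
      · exact hy.1 rfl
      · exact Finset.disjoint_left.1 hTS hy.2 h
    · intro u hu u' hu' huu' y hy
      exact hc u (Finset.mem_of_mem_erase hu) u' (Finset.mem_of_mem_erase hu') huu' y (hsub' hy)
    · intro u hu
      have huT := Finset.mem_of_mem_erase hu
      have hut : u ≠ t := Finset.ne_of_mem_erase hu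
      have move : ∀ s ∈ S, ¬ r t c s → r u s t := by
        intro s hs hcs
        refine hc t ht u huT (fun h => hut h.symm) s (Finset.mem_union_right _ hs) ?_ ?_ ?_
        · rintro rfl; exact htS hs
        · rintro rfl; exact Finset.disjoint_left.1 hTS huT hs
        · intro h
          exact hcs ((hr _).trans (hall u huT hut) ((hr _).symm h))
      have rep : ∀ s ∈ S, ∃ s' ∈ S', r u s s' := by
        intro s hs
        by_cases h1 : s = s1
        · exact ⟨t, by simp [hS'], h1 ▸ move s1 hs1 hcs1⟩
        · by_cases h2 : s = s2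
          · exact ⟨t, by simp [hS'], h2 ▸ move s2 hs2 hcs2⟩
          · exact ⟨s, by simp [hS', h1, h2, hs], (hr _).refl _⟩
      obtain ⟨a, ha, b, hb, d, hd, hab, hbd, had⟩ := h3 u huT
      obtain ⟨a', ha', haa⟩ := rep a ha
      obtain ⟨b', hb', hbb⟩ := rep b hb
      obtain ⟨d', hd', hdd⟩ := rep d hd
      refine ⟨a', ha', b', hb', d', hd', ?_, ?_, ?_⟩
      · intro h; exact hab ((hr _).trans haa ((hr _).trans h ((hr _).symm hbb)))
      · intro h; exact hbd ((hr _).trans hbb ((hr _).trans h ((hr _).symm hdd)))
      · intro h; exact had ((hr _).trans haa ((hr _).trans h ((hr _).symm hdd)))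

end Vale.Agent.P153.BK
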