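import Vale.Agent.P153.LevelTopo

/-!
Bichromatic connections in the triangular lattice, hexagonal boxes, and a colouring of a hexagonal
box which is connected by bichromatic edges and is attached to three prescribed outer vertices.
-/

namespace Vale.Agent.P153.BK

open Relation

/-- The edge `x y` is bichromatic for `τ`. -/
def Bi (τ : ℤ × ℤ → Bool) (x y : ℤ × ℤ) : Prop := Step x y ∧ τ x ≠ τ y

/-- `x` and `y` are joined by bichromatic edges inside `A` (or equal). -/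
def Con (τ : ℤ × ℤ → Bool) (A : Set (ℤ × ℤ)) (x y : ℤ × ℤ) : Prop :=
  ReflTransGen (fun u v => Bi τ u v ∧ u ∈ A ∧ v ∈ A) x y

theorem Bi.symm {τ : ℤ × ℤ → Bool} {x y : ℤ × ℤ} (h : Bi τ x y) : Bi τ y x :=
  ⟨by have := h.1; unfold Step at this ⊢; omega, h.2.symm⟩

section Con

variable {τ τ' : ℤ × ℤ → Bool} {A B : Set (ℤ × ℤ)} {x y z : ℤ × ℤ}

theorem Con.refl (τ : ℤ × ℤ → Bool) (A : Set (ℤ × ℤ)) (x : ℤ × ℤ) : Con τ A x x :=
  ReflTransGen.refl

theorem Con.trans (h : Con τ A x y) (h' : Con τ A y z) : Con τ A x z := ReflTransGen.trans h h'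

theorem Con.symm (h : Con τ A x y) : Con τ A y x := by
  induction h with
  | refl => exact ReflTransGen.refl
  | tail _ hbc ih => exact ReflTransGen.head ⟨hbc.1.symm, hbc.2.2, hbc.2.1⟩ ih

theorem Con.mono (h : Con τ A x y) (hAB : A ⊆ B) : Con τ B x y :=
  ReflTransGen.mono (fun _ _ h => ⟨h.1, hAB h.2.1, hAB h.2.2⟩) _ _ h

theorem Con.single (h : Bi τ x y) (hx : x ∈ A) (hy : y ∈ A) : Con τ A x y :=
  ReflTransGen.single ⟨h, hx, hy⟩

theorem Con.right_mem (h : Con τ A x y) (hx : x ∈ A) : y ∈ A := by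
  induction h with
  | refl => exact hx
  | tail _ hbc _ => exact hbc.2.2

theorem Con.left_mem (h : Con τ A x y) (hy : y ∈ A) : x ∈ A := h.symm.right_mem hy

theorem Con.congr (h : Con τ A x y) (hA : ∀ z ∈ A, τ z = τ' z) : Con τ' A x y :=
  ReflTransGen.mono (fun u v h => ⟨⟨h.1.1, by rw [← hA u h.2.1, ← hA v h.2.2]; exact h.1.2⟩,
    h.2⟩) _ _ h

theorem con_equivalence (τ : ℤ × ℤ → Bool) (A : Set (ℤ × ℤ)) : Equivalence (Con τ A) :=
  ⟨Con.refl τ A, Con.symm, Con.trans⟩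

/-- A connection inside `A` either stays in `B` or meets a vertex of `A ∩ B` all of whose initial
part lies in `B` and which has a neighbour in `A \ B`. -/
theorem Con.exit (h : Con τ A x y) (hx : x ∈ B) : Con τ (A ∩ B) x y ∨
    ∃ u v, Con τ (A ∩ B) x u ∧ u ∈ B ∧ Bi τ u v ∧ v ∉ B ∧ u ∈ A ∧ v ∈ A := by
  induction h with
  | refl => exact Or.inl (Con.refl _ _ _)
  | @tail b c hab hbc ih =>
    rcases ih with h | h
    · have hb : b ∈ B := by
        rcases ReflTransGen.cases_tail h with rfl | ⟨d, -, hd⟩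
        · exact hx
        · exact hd.2.2.2
      by_cases hc : c ∈ B
      · exact Or.inl (h.trans (Con.single hbc.1 ⟨hbc.2.1, hb⟩ ⟨hbc.2.2, hc⟩))
      · exact Or.inr ⟨b, c, h, hb, hbc.1, hc, hbc.2.1, hbc.2.2⟩
    · exact Or.inr h

end Con

/-- The hexagon of radius `n` around the origin. -/
def H (n : ℤ) : Set (ℤ × ℤ) :=
  {x | -n ≤ x.1 ∧ x.1 ≤ n ∧ -n ≤ x.2 ∧ x.2 ≤ n ∧ -n ≤ x.1 + x.2 ∧ x.1 + x.2 ≤ n}

theorem mem_H {n : ℤ} {x : ℤ × ℤ} : x ∈ H n ↔
    -n ≤ x.1 ∧ x.1 ≤ n ∧ -n ≤ x.2 ∧ x.2 ≤ n ∧ -n ≤ x.1 + x.2 ∧ x.1 + x.2 ≤ n := Iff.rfl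

/-- Stripes with one flipped vertex. -/
def pat (ε : Bool) (v x : ℤ × ℤ) : Bool := xor (xor ε (decide (x.2 % 2 = 1))) (decide (x = v))

theorem pat_row {ε : Bool} {v x y : ℤ × ℤ} (h : y.2 = x.2 + 1 ∨ y.2 = x.2 - 1) (hx : x ≠ v)
    (hy : y ≠ v) : pat ε v x ≠ pat ε v y := by
  have e : decide (y.2 % 2 = 1) = !decide (x.2 % 2 = 1) := by
    rw [← decide_not]
    congr 1
    apply propext
    omega
  simp only [pat, hx, hy, decide_false, Bool.xor_false, e]
  cases ε <;> cases decide (x.2 % 2 = 1) <;> simp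

theorem pat_flip {ε : Bool} {v y : ℤ × ℤ} (h : y.2 = v.2) (hy : y ≠ v) :
    pat ε v v ≠ pat ε v y := by
  simp only [pat, hy, decide_false, Bool.xor_false, h, decide_true]
  cases ε <;> cases decide (v.2 % 2 = 1) <;> simp

variable {n : ℤ} {ε : Bool} {v : ℤ × ℤ} {τ : ℤ × ℤ → Bool}

/-- One step towards the middle row. -/
theorem con_down (hn : 2 ≤ n) (hτ : ∀ x ∈ H n, τ x = pat ε v x) {x : ℤ × ℤ} (hx : x ∈ H n)
    (h0 : x.2 ≠ 0) : ∃ y ∈ H n, y.2.natAbs < x.2.natAbs ∧ Con τ (H n) x y := by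
  -- away from `v`
  have main : ∀ x ∈ H n, x.2 ≠ 0 → x ≠ v →
      ∃ y ∈ H n, y.2.natAbs < x.2.natAbs ∧ Con τ (H n) x y := by
    intro x hx h0 hxv
    obtain ⟨p, q⟩ := x
    rw [mem_H] at hx
    simp only at hx h0
    rcases lt_or_gt_of_ne h0 with hq | hq
    · -- lower half
      by_cases hv : ((p, q + 1) : ℤ × ℤ) = v
      · have hmem : ((p - 1, q + 1) : ℤ × ℤ) ∈ H n := by rw [mem_H]; simp only; omega
        refine ⟨(p - 1, q + 1), hmem, by simp only; omega, Con.single ⟨?_, ?_⟩ ?_ hmem⟩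
        · simp [Step]
        · rw [hτ _ (by rw [mem_H]; simp only; omega), hτ _ hmem]
          refine pat_row (Or.inl rfl) hxv ?_
          rw [← hv]; simp
        · rw [mem_H]; simp only; omega
      · have hmem : ((p, q + 1) : ℤ × ℤ) ∈ H n := by rw [mem_H]; simp only; omega
        refine ⟨(p, q + 1), hmem, by simp only; omega, Con.single ⟨?_, ?_⟩ ?_ hmem⟩
        · simp [Step]
        · rw [hτ _ (by rw [mem_H]; simp only; omega), hτ _ hmem]
          exact pat_row (Or.inl rfl) hxv hv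
        · rw [mem_H]; simp only; omega
    · by_cases hv : ((p, q - 1) : ℤ × ℤ) = v
      · have hmem : ((p + 1, q - 1) : ℤ × ℤ) ∈ H n := by rw [mem_H]; simp only; omega
        refine ⟨(p + 1, q - 1), hmem, by simp only; omega, Con.single ⟨?_, ?_⟩ ?_ hmem⟩
        · simp [Step]
        · rw [hτ _ (by rw [mem_H]; simp only; omega), hτ _ hmem]
          refine pat_row (Or.inr rfl) hxv ?_
          rw [← hv]; simp
        · rw [mem_H]; simp only; omega
      · have hmem : ((p, q - 1) : ℤ × ℤ) ∈ H n := by rw [mem_H]; simp only; omega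
        refine ⟨(p, q - 1), hmem, by simp only; omega, Con.single ⟨?_, ?_⟩ ?_ hmem⟩
        · simp [Step]
        · rw [hτ _ (by rw [mem_H]; simp only; omega), hτ _ hmem]
          exact pat_row (Or.inr rfl) hxv hv
        · rw [mem_H]; simp only; omega
  by_cases hxv : x = v
  · -- first move along the row
    obtain ⟨u, hu, hrow, huv, hst⟩ : ∃ u ∈ H n, u.2 = x.2 ∧ u ≠ x ∧ Step x u := by
      obtain ⟨p, q⟩ := x
      rw [mem_H] at hx
      simp only at hx h0
      by_cases hc : ((p + 1, q) : ℤ × ℤ) ∈ H n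
      · exact ⟨(p + 1, q), hc, rfl, by simp, by unfold Step; simp⟩
      · refine ⟨(p - 1, q), ?_, rfl, by simp, by unfold Step; simp⟩
        rw [mem_H] at hc ⊢; simp only at hc ⊢; omega
    obtain ⟨y, hy, hlt, hcon⟩ := main u hu (by rw [hrow]; exact h0) (by rw [← hxv]; exact huv)
    refine ⟨y, hy, by rw [← hrow]; exact hlt, Con.trans (Con.single ⟨hst, ?_⟩ hx hu) hcon⟩
    rw [hτ _ hx, hτ _ hu]
    subst hxv
    exact pat_flip hrow huv
  · exact main x hx h0 hxv

/-- Two neighbours in the middle row. -/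
theorem con_mid (hτ : ∀ x ∈ H n, τ x = pat ε v x) {a : ℤ} (h1 : -n ≤ a) (h2 : a < n) :
    Con τ (H n) (a, 0) (a + 1, 0) := by
  have m0 : ((a, 0) : ℤ × ℤ) ∈ H n := by rw [mem_H]; simp only; omega
  have m1 : ((a + 1, 0) : ℤ × ℤ) ∈ H n := by rw [mem_H]; simp only; omega
  have m2 : ((a, 1) : ℤ × ℤ) ∈ H n := by rw [mem_H]; simp only; omega
  have m3 : ((a + 1, -1) : ℤ × ℤ) ∈ H n := by rw [mem_H]; simp only; omega
  by_cases hv0 : ((a, 0) : ℤ × ℤ) = v
  · refine Con.single ⟨by unfold Step; simp, ?_⟩ m0 m1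
    rw [hτ _ m0, hτ _ m1]
    subst hv0
    exact pat_flip rfl (by simp)
  by_cases hv1 : ((a + 1, 0) : ℤ × ℤ) = v
  · refine Con.single ⟨by unfold Step; simp, ?_⟩ m0 m1
    rw [hτ _ m0, hτ _ m1]
    subst hv1
    exact (pat_flip (v := (a + 1, 0)) (y := (a, 0)) rfl hv0).symm
  by_cases hv2 : ((a, 1) : ℤ × ℤ) = v
  · have hv3 : ((a + 1, -1) : ℤ × ℤ) ≠ v := by rw [← hv2]; simp
    refine (Con.single (y := (a + 1, -1)) ⟨by unfold Step; simp, ?_⟩ m0 m3).trans
      (Con.single ⟨by unfold Step; simp, ?_⟩ m3 m1)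
    · rw [hτ _ m0, hτ _ m3]; exact pat_row (Or.inr (by simp)) hv0 hv3
    · rw [hτ _ m3, hτ _ m1]; exact pat_row (Or.inl (by simp)) hv3 hv1
  · refine (Con.single (y := (a, 1)) ⟨by unfold Step; simp, ?_⟩ m0 m2).trans
      (Con.single ⟨by unfold Step; simp, ?_⟩ m2 m1)
    · rw [hτ _ m0, hτ _ m2]; exact pat_row (Or.inl (by simp)) hv0 hv2
    · rw [hτ _ m2, hτ _ m1]; exact pat_row (Or.inr (by simp)) hv2 hv1

/-- Stripes with one flip are connected. -/
theorem pat_con (hn : 2 ≤ n) (hτ : ∀ x ∈ H n, τ x = pat ε v x) {x : ℤ × ℤ} (hx : x ∈ H n) :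
    Con τ (H n) x (0, 0) := by
  have row : ∀ (k : ℕ) (a : ℤ), -n ≤ a → a ≤ n → (n - a).toNat = k →
      Con τ (H n) (a, 0) (n, 0) := by
    intro k
    induction k with
    | zero => intro a h1 h2 h3; have : a = n := by omega
              subst this; exact Con.refl _ _ _
    | succ k ih =>
      intro a h1 h2 h3
      exact (con_mid hτ h1 (by omega)).trans (ih (a + 1) (by omega) (by omega) (by omega))
  have row0 : ∀ a : ℤ, -n ≤ a → a ≤ n → Con τ (H n) (a, 0) (0, 0) := fun a h1 h2 =>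
    (row _ a h1 h2 rfl).trans (row _ 0 (by omega) (by omega) rfl).symm
  have main : ∀ (k : ℕ) (x : ℤ × ℤ), x ∈ H n → x.2.natAbs ≤ k → Con τ (H n) x (0, 0) := by
    intro k
    induction k with
    | zero =>
      intro x hx h
      obtain ⟨p, q⟩ := x
      have hq : q = 0 := by simp only at h; omega
      subst hq
      rw [mem_H] at hx; simp only at hx
      exact row0 p (by omega) (by omega)
    | succ k ih =>
      intro x hx h
      by_cases h0 : x.2 = 0
      · exact ih x hx (by omega)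
      · obtain ⟨y, hy, hlt, hc⟩ := con_down hn hτ hx h0
        exact hc.trans (ih y hy (by omega))
  exact main _ x hx le_rfl

end Vale.Agent.P153.BK
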