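import Vale.Agent.P153.BK.Tri
import Vale.Agent.P153.BK.Attach
import Mathlib.MeasureTheory.Constructions.ProjectiveFamilyContent
import Mathlib.MeasureTheory.Measure.MeasuredSets

/-!
Local events of `±` configurations and the hypotheses of the Burton–Keane theorem.
-/

namespace Vale.Agent.P153.BK

open Relation MeasureTheory Filter Topology Set
open scoped ENNReal symmDiff

/-- Configurations. -/
abbrev Om : Type := ℤ × ℤ → Bool

/-- `A` depends only on the colours in `B`. -/
def Loc (B : Finset (ℤ × ℤ)) (A : Set Om) : Prop :=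
  ∀ τ τ' : Om, (∀ x ∈ B, τ x = τ' x) → (τ ∈ A ↔ τ' ∈ A)

theorem Loc.mono {B B' : Finset (ℤ × ℤ)} {A : Set Om} (h : Loc B A) (hB : B ⊆ B') : Loc B' A :=
  fun τ τ' hh => h τ τ' (fun x hx => hh x (hB hx))

theorem Loc.compl {B : Finset (ℤ × ℤ)} {A : Set Om} (h : Loc B A) : Loc B Aᶜ :=
  fun τ τ' hh => not_congr (h τ τ' hh)

theorem Loc.meas {B : Finset (ℤ × ℤ)} {A : Set Om} (h : Loc B A) : MeasurableSet A := by
  let f : Om → (B → Bool) := fun τ x => τ x
  have hf : Measurable f := measurable_pi_lambda _ (fun x => measurable_pi_apply _)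
  have : A = f ⁻¹' (f '' A) := by
    apply Set.Subset.antisymm (Set.subset_preimage_image f A)
    rintro τ ⟨τ', hτ', he⟩
    refine (h τ' τ (fun x hx => ?_)).1 hτ'
    exact congrFun he ⟨x, hx⟩
  rw [this]
  exact hf (Set.toFinite _).measurableSet

theorem loc_of_cylinder {t : Set Om} (ht : t ∈ measurableCylinders (fun _ : ℤ × ℤ => Bool)) :
    ∃ B, Loc B t := by
  obtain ⟨B, S, -, rfl⟩ := (mem_measurableCylinders t).1 ht
  refine ⟨B, fun τ τ' h => ?_⟩
  have : B.restrict τ = B.restrict τ' := by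
    funext x; exact h x x.2
  simp only [mem_cylinder, this]

theorem exists_loc_approx (μ : Measure Om) [IsFiniteMeasure μ] {E : Set Om} (hE : MeasurableSet E)
    {ε : ℝ≥0∞} (hε : 0 < ε) : ∃ B t, Loc B t ∧ μ (t ∆ E) < ε := by
  obtain ⟨t, ht, h⟩ := exists_measure_symmDiff_lt_of_generateFrom_isSetRing (μ := μ)
    (C := measurableCylinders (fun _ : ℤ × ℤ => Bool)) isSetRing_measurableCylinders
    ⟨{Set.univ}, Set.countable_singleton _, by
      simpa using univ_mem_measurableCylinders (fun _ : ℤ × ℤ => Bool), by simp⟩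
    (generateFrom_measurableCylinders).symm hE hε
  obtain ⟨B, hB⟩ := loc_of_cylinder ht
  exact ⟨B, t, hB, h⟩

/-- Hypotheses: translation invariance, finite energy and mixing for local events. -/
structure Hyp (P : Measure Om) : Prop where
  prob : IsProbabilityMeasure P
  inv : ∀ (c : ℤ × ℤ) (B : Finset (ℤ × ℤ)) (A : Set Om), Loc B A → P (sh c ⁻¹' A) = P A
  fe : ∀ n : ℤ, ∃ C : ℝ≥0∞, C ≠ ⊤ ∧ ∀ (η : Om) (B : Finset (ℤ × ℤ)) (A : Set Om), Loc B A →
    P (recol n η ⁻¹' A) ≤ C * P A
  mix : ∃ z : ℕ → ℤ × ℤ, ∀ (B : Finset (ℤ × ℤ)) (A A' : Set Om), Loc B A → Loc B A' →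
    Tendsto (fun k => P (A ∩ sh (z k) ⁻¹' A')) atTop (𝓝 (P A * P A'))

theorem measurable_sh (c : ℤ × ℤ) : Measurable (sh c) :=
  measurable_pi_lambda _ (fun x => measurable_pi_apply _)

theorem measurable_recol (n : ℤ) (η : Om) : Measurable (recol n η) := by
  refine measurable_pi_lambda _ (fun x => ?_)
  unfold recol
  by_cases h : -n ≤ x.1 ∧ x.1 ≤ n ∧ -n ≤ x.2 ∧ x.2 ≤ n ∧ -n ≤ x.1 + x.2 ∧ x.1 + x.2 ≤ n
  · simp only [h, and_self, if_true]; exact measurable_const
  · simp only [h, if_false]; exact measurable_pi_apply _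

theorem Hyp.inv' {P : Measure Om} (h : Hyp P) (c : ℤ × ℤ) {E : Set Om} (hE : MeasurableSet E) :
    P (sh c ⁻¹' E) = P E := by
  have := h.prob
  have e : P.map (sh c) = P := by
    have : IsProbabilityMeasure (P.map (sh c)) :=
      Measure.isProbabilityMeasure_map (measurable_sh c).aemeasurable
    refine ext_of_generate_finite (measurableCylinders (fun _ : ℤ × ℤ => Bool))
      (generateFrom_measurableCylinders).symm isPiSystem_measurableCylinders (fun t ht => ?_)
      (by simp)
    obtain ⟨B, hB⟩ := loc_of_cylinder ht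
    rw [Measure.map_apply (measurable_sh c) hB.meas]
    exact h.inv c B t hB
  conv_rhs => rw [← e]
  rw [Measure.map_apply (measurable_sh c) hE]

theorem Hyp.fe' {P : Measure Om} (h : Hyp P) (n : ℤ) : ∃ C : ℝ≥0∞, C ≠ ⊤ ∧
    ∀ (η : Om) (E : Set Om), MeasurableSet E → P (recol n η ⁻¹' E) ≤ C * P E := by
  have := h.prob
  obtain ⟨C, hC, hfe⟩ := h.fe n
  refine ⟨C, hC, fun η E hE => ?_⟩
  set ν := P.map (recol n η) with hν
  have : IsProbabilityMeasure ν := Measure.isProbabilityMeasure_map (measurable_recol n η).aemeasurable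
  have key : ∀ ε : ℝ≥0∞, 0 < ε → ν E ≤ C * (P E + ε) + ε := by
    intro ε hε
    obtain ⟨B, t, hB, ht⟩ := exists_loc_approx (P + ν) hE hε
    have h1 : P (t ∆ E) ≤ ε := le_trans (by simp) ht.le
    have h2 : ν (t ∆ E) ≤ ε := le_trans (by simp) ht.le
    have e1 : ν E ≤ ν t + ν (t ∆ E) := by
      refine (measure_mono ?_).trans (measure_union_le t (t ∆ E))
      intro x hx
      by_cases hxt : x ∈ t
      · exact Or.inl hxt
      · exact Or.inr (Or.inr ⟨hx, hxt⟩)
    have e2 : P t ≤ P E + P (t ∆ E) := by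
      refine (measure_mono ?_).trans (measure_union_le E (t ∆ E))
      intro x hx
      by_cases hxE : x ∈ E
      · exact Or.inl hxE
      · exact Or.inr (Or.inl ⟨hx, hxE⟩)
    have e3 : ν t ≤ C * P t := by
      rw [hν, Measure.map_apply (measurable_recol n η) hB.meas]
      exact hfe η B t hB
    calc ν E ≤ ν t + ν (t ∆ E) := e1
      _ ≤ C * P t + ε := add_le_add e3 h2
      _ ≤ C * (P E + ε) + ε := by
        gcongr
        exact e2.trans (add_le_add le_rfl h1)
  have hlim : Tendsto (fun ε : ℝ≥0∞ => C * (P E + ε) + ε) (𝓝[>] 0) (𝓝 (C * (P E + 0) + 0)) := by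
    refine tendsto_nhdsWithin_of_tendsto_nhds ?_
    refine Tendsto.add ?_ tendsto_id
    refine ENNReal.Tendsto.const_mul (Tendsto.add tendsto_const_nhds tendsto_id) (Or.inr hC)
  have := ge_of_tendsto hlim (eventually_nhdsWithin_of_forall (fun ε hε => key ε hε))
  rw [add_zero, add_zero] at this
  rwa [hν, Measure.map_apply (measurable_recol n η) hE] at this

end Vale.Agent.P153.BK
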