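import Vale.Agent.P153.BK.Defs

/-!
The pattern lemma: the configuration can be changed inside a box so that the box becomes
bichromatically connected and three given neighbours of the box are joined to it.

The pattern: horizontal stripes, with at most one site of the top or bottom row flipped.
-/

namespace Vale.Agent.P153.BK

open Vale.Agent.P153 Vale.Agent.P153.Topo

/-- Parity of an integer. -/
def par (y : ℤ) : Bool := decide (y % 2 = 0)

theorem par_succ (y : ℤ) : par (y + 1) = !par y := by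
  unfold par
  rcases Int.emod_two_eq_zero_or_one y with h | h
  · have h1 : (y + 1) % 2 = 1 := by omega
    simp [h, h1]
  · have h1 : (y + 1) % 2 = 0 := by omega
    simp [h, h1]

theorem par_ne {y z : ℤ} (h : z = y + 1 ∨ z = y - 1) : par z = !par y := by
  rcases h with rfl | rfl
  · exact par_succ y
  · have h1 := par_succ (y - 1)
    rw [sub_add_cancel] at h1
    rw [h1, Bool.not_not]

/-- The chosen neighbour inside the box. -/
def nbx (n : ℤ) (v : ℤ × ℤ) : ℤ × ℤ :=
  if v.2 = n + 1 then (max v.1 (-n), n)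
  else if v.2 = -n - 1 then (min v.1 n, -n)
  else if v.1 = n + 1 then (n, if v.2 = -n then -n + 1 else v.2)
  else (-n, if v.2 = n then n - 1 else v.2)

theorem nbx_cases {n : ℤ} {v : ℤ × ℤ} (hv : v ∉ Rect (-n) n (-n) n)
    (hv' : ∃ u ∈ Rect (-n) n (-n) n, Adj v u) :
    (v.2 = n + 1 ∧ -n - 1 ≤ v.1 ∧ v.1 ≤ n) ∨ (v.2 = -n - 1 ∧ -n ≤ v.1 ∧ v.1 ≤ n + 1) ∨
    (v.1 = n + 1 ∧ -n ≤ v.2 ∧ v.2 ≤ n) ∨ (v.1 = -n - 1 ∧ -n ≤ v.2 ∧ v.2 ≤ n) := by
  obtain ⟨u, hu, hvu⟩ := hv'
  rw [mem_rect] at hu hv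
  rw [adj_iff] at hvu
  omega

theorem nbx_spec {n : ℤ} (hn : 3 ≤ n) {v : ℤ × ℤ} (hv : v ∉ Rect (-n) n (-n) n)
    (hv' : ∃ u ∈ Rect (-n) n (-n) n, Adj v u) :
    nbx n v ∈ Rect (-n) n (-n) n ∧ Adj v (nbx n v) ∧
      ((nbx n v).2 = n ∨ (nbx n v).2 = -n ∨ ∃ w ∈ Rect (-n) n (-n) n, Adj v w ∧
        (w.2 = (nbx n v).2 + 1 ∨ w.2 = (nbx n v).2 - 1)) := by
  obtain ⟨x, y⟩ := v
  have hc := nbx_cases hv hv'
  dsimp only at hc
  unfold nbx
  dsimp only
  rcases hc with ⟨h1, h2, h3⟩ | ⟨h1, h2, h3⟩ | ⟨h1, h2, h3⟩ | ⟨h1, h2, h3⟩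
  · rw [if_pos h1]
    refine ⟨?_, ?_, Or.inl rfl⟩
    · rw [mem_rect]; dsimp only; omega
    · rw [adj_iff]; dsimp only; omega
  · rw [if_neg (by omega), if_pos h1]
    refine ⟨?_, ?_, Or.inr (Or.inl rfl)⟩
    · rw [mem_rect]; dsimp only; omega
    · rw [adj_iff]; dsimp only; omega
  · rw [if_neg (by omega), if_neg (by omega), if_pos h1]
    refine ⟨?_, ?_, ?_⟩
    · rw [mem_rect]; dsimp only; split_ifs <;> omega
    · rw [adj_iff]; dsimp only; split_ifs <;> omega
    · by_cases h4 : y = n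
      · left
        dsimp only
        rw [if_neg (by omega), h4]
      · right; right
        by_cases h5 : y = -n
        · refine ⟨(n, -n), ?_, ?_, ?_⟩
          · rw [mem_rect]; dsimp only; omega
          · rw [adj_iff]; dsimp only; omega
          · dsimp only; rw [if_pos h5]; omega
        · refine ⟨(n, y + 1), ?_, ?_, ?_⟩
          · rw [mem_rect]; dsimp only; omega
          · rw [adj_iff]; dsimp only; omega
          · dsimp only; rw [if_neg h5]; omega
  · rw [if_neg (by omega), if_neg (by omega), if_neg (by omega)]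
    refine ⟨?_, ?_, ?_⟩
    · rw [mem_rect]; dsimp only; split_ifs <;> omega
    · rw [adj_iff]; dsimp only; split_ifs <;> omega
    · by_cases h4 : y = -n
      · right; left
        dsimp only
        rw [if_neg (by omega), h4]
      · right; right
        by_cases h5 : y = n
        · refine ⟨(-n, n), ?_, ?_, ?_⟩
          · rw [mem_rect]; dsimp only; omega
          · rw [adj_iff]; dsimp only; omega
          · dsimp only; rw [if_pos h5]; omega
        · refine ⟨(-n, y - 1), ?_, ?_, ?_⟩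
          · rw [mem_rect]; dsimp only; omega
          · rw [adj_iff]; dsimp only; omega
          · dsimp only; rw [if_neg h5]; omega

theorem nbx_top {n : ℤ} (hn : 3 ≤ n) {v : ℤ × ℤ} (hv : v ∉ Rect (-n) n (-n) n)
    (hv' : ∃ u ∈ Rect (-n) n (-n) n, Adj v u) (h : (nbx n v).2 = n) :
    (v.2 = n + 1 ∧ ((v.1 = -n - 1 ∧ (nbx n v).1 = -n) ∨ (nbx n v).1 = v.1)) ∨
      (v.1 = n + 1 ∧ v.2 = n ∧ (nbx n v).1 = n) := by
  rcases nbx_cases hv hv' with ⟨h1, h2, h3⟩ | ⟨h1, h2, h3⟩ | ⟨h1, h2, h3⟩ | ⟨h1, h2, h3⟩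
  · left
    have e : nbx n v = (max v.1 (-n), n) := by unfold nbx; rw [if_pos h1]
    rw [e]
    dsimp only
    omega
  · exfalso
    have e : nbx n v = (min v.1 n, -n) := by unfold nbx; rw [if_neg (by omega), if_pos h1]
    rw [e] at h
    dsimp only at h
    omega
  · right
    have e : nbx n v = (n, if v.2 = -n then -n + 1 else v.2) := by
      unfold nbx; rw [if_neg (by omega), if_neg (by omega), if_pos h1]
    rw [e] at h ⊢
    dsimp only at h ⊢
    split_ifs at h <;> omega
  · exfalso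
    have e : nbx n v = (-n, if v.2 = n then n - 1 else v.2) := by
      unfold nbx; rw [if_neg (by omega), if_neg (by omega), if_neg (by omega)]
    rw [e] at h
    dsimp only at h
    split_ifs at h <;> omega

theorem nbx_bot {n : ℤ} (hn : 3 ≤ n) {v : ℤ × ℤ} (hv : v ∉ Rect (-n) n (-n) n)
    (hv' : ∃ u ∈ Rect (-n) n (-n) n, Adj v u) (h : (nbx n v).2 = -n) :
    (v.2 = -n - 1 ∧ ((v.1 = n + 1 ∧ (nbx n v).1 = n) ∨ (nbx n v).1 = v.1)) ∨
      (v.1 = -n - 1 ∧ v.2 = -n ∧ (nbx n v).1 = -n) := by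
  rcases nbx_cases hv hv' with ⟨h1, h2, h3⟩ | ⟨h1, h2, h3⟩ | ⟨h1, h2, h3⟩ | ⟨h1, h2, h3⟩
  · exfalso
    have e : nbx n v = (max v.1 (-n), n) := by unfold nbx; rw [if_pos h1]
    rw [e] at h
    dsimp only at h
    omega
  · left
    have e : nbx n v = (min v.1 n, -n) := by unfold nbx; rw [if_neg (by omega), if_pos h1]
    rw [e]
    dsimp only
    omega
  · exfalso
    have e : nbx n v = (n, if v.2 = -n then -n + 1 else v.2) := by
      unfold nbx; rw [if_neg (by omega), if_neg (by omega), if_pos h1]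
    rw [e] at h
    dsimp only at h
    split_ifs at h <;> omega
  · right
    have e : nbx n v = (-n, if v.2 = n then n - 1 else v.2) := by
      unfold nbx; rw [if_neg (by omega), if_neg (by omega), if_neg (by omega)]
    rw [e] at h ⊢
    dsimp only at h ⊢
    split_ifs at h <;> omega

theorem nbx_inj {n : ℤ} (hn : 3 ≤ n) {v v' : ℤ × ℤ} (hv : v ∉ Rect (-n) n (-n) n)
    (hv' : ∃ u ∈ Rect (-n) n (-n) n, Adj v u) (hw : v' ∉ Rect (-n) n (-n) n)
    (hw' : ∃ u ∈ Rect (-n) n (-n) n, Adj v' u) (h : nbx n v = nbx n v')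
    (hr : (nbx n v).2 = n ∨ (nbx n v).2 = -n) : v = v' ∨ Adj v v' := by
  have h1 := congrArg Prod.fst h
  have h2 := congrArg Prod.snd h
  have key : ∀ p q : ℤ, p = q → (nbx n v).1 = p → (nbx n v').1 = q → v = v' ∨ Adj v v' := by
    intro p q hpq hp hq
    rw [adj_iff, Prod.ext_iff]
    rcases hr with hr | hr
    · have a := nbx_top hn hv hv' hr
      have b := nbx_top hn hw hw' (h2 ▸ hr)
      rw [hp] at a
      rw [hq] at b
      clear h h1 h2 hp hq hv hv' hw hw' hr
      rcases a with ⟨a1, ⟨a2, a3⟩ | a3⟩ | ⟨a1, a2, a3⟩ <;>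
      rcases b with ⟨b1, ⟨b2, b3⟩ | b3⟩ | ⟨b1, b2, b3⟩ <;> omega
    · have a := nbx_bot hn hv hv' hr
      have b := nbx_bot hn hw hw' (h2 ▸ hr)
      rw [hp] at a
      rw [hq] at b
      clear h h1 h2 hp hq hv hv' hw hw' hr
      rcases a with ⟨a1, ⟨a2, a3⟩ | a3⟩ | ⟨a1, a2, a3⟩ <;>
      rcases b with ⟨b1, ⟨b2, b3⟩ | b3⟩ | ⟨b1, b2, b3⟩ <;> omega
  exact key _ _ h1 rfl rfl

theorem rect_cn {n : ℤ} (hn : 3 ≤ n) {τ : ℤ × ℤ → Bool} (r : Bool) (Q : ℤ × ℤ)
    (hQ : Q ∉ Rect (-n) n (-n) n ∨ Q.2 = n ∨ Q.2 = -n)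
    (hτ : ∀ x ∈ Rect (-n) n (-n) n, τ x = xor (xor r (par x.2)) (decide (x = Q))) :
    ∀ x ∈ Rect (-n) n (-n) n, Cn τ (Rect (-n) n (-n) n) x (0, 0) := by
  set R := Rect (-n) n (-n) n with hR
  have mem : ∀ x y : ℤ, -n ≤ x → x ≤ n → -n ≤ y → y ≤ n → (x, y) ∈ R := by
    intro x y h1 h2 h3 h4
    rw [hR, mem_rect]
    exact ⟨h1, h2, h3, h4⟩
  -- vertical and diagonal edges
  have edge : ∀ u v : ℤ × ℤ, u ∈ R → v ∈ R → u ≠ Q → v ≠ Q → Adj u v →
      (v.2 = u.2 + 1 ∨ v.2 = u.2 - 1) → E τ u v := by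
    intro u v hu hv hu' hv' ha hp
    refine ⟨ha, ?_⟩
    rw [hτ u hu, hτ v hv, par_ne hp, decide_eq_false hu', decide_eq_false hv']
    cases r <;> cases par u.2 <;> simp
  have neQ : ∀ x y : ℤ, -n ≤ x → x ≤ n → -n < y → y < n → (x, y) ≠ Q := by
    intro x y h1 h2 h3 h4 h
    rcases hQ with h5 | h5
    · exact h5 (h ▸ mem x y h1 h2 h3.le h4.le)
    · rw [← h] at h5
      dsimp only at h5
      omega
  -- vertical step in the middle
  have vert : ∀ x y : ℤ, -n ≤ x → x ≤ n → -n < y → y + 1 < n → Cn τ R (x, y) (x, y + 1) := by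
    intro x y h1 h2 h3 h4
    refine Cn.of_edge (mem _ _ h1 h2 (by omega) (by omega)) (mem _ _ h1 h2 (by omega) (by omega)) ?_
    exact edge _ _ (mem _ _ h1 h2 (by omega) (by omega)) (mem _ _ h1 h2 (by omega) (by omega))
      (neQ _ _ h1 h2 h3 (by omega)) (neQ _ _ h1 h2 (by omega) h4)
      (by rw [adj_iff]; dsimp only; omega) (by dsimp only; omega)
  have diag : ∀ x y : ℤ, -n ≤ x → x + 1 ≤ n → -n < y → y + 1 < n →
      Cn τ R (x, y + 1) (x + 1, y) := by
    intro x y h1 h2 h3 h4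
    refine Cn.of_edge (mem _ _ h1 (by omega) (by omega) (by omega))
      (mem _ _ (by omega) h2 (by omega) (by omega)) ?_
    exact edge _ _ (mem _ _ h1 (by omega) (by omega) (by omega))
      (mem _ _ (by omega) h2 (by omega) (by omega))
      (neQ _ _ h1 (by omega) (by omega) (by omega)) (neQ _ _ (by omega) h2 (by omega) (by omega))
      (by rw [adj_iff]; dsimp only; omega) (by dsimp only; omega)
  have horz : ∀ x : ℤ, -n ≤ x → x + 1 ≤ n → Cn τ R (x, 0) (x + 1, 0) := by
    intro x h1 h2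
    have e1 := vert x 0 h1 (by omega) (by omega) (by omega)
    have e2 := diag x 0 h1 h2 (by omega) (by omega)
    exact e1.trans e2
  -- row 0
  have row : ∀ x : ℤ, -n ≤ x → x ≤ n → Cn τ R (x, 0) (0, 0) := by
    have up : ∀ x : ℤ, 0 ≤ x → x ≤ n → Cn τ R (x, 0) (0, 0) := by
      intro x hx
      induction x, hx using Int.leInduction with
      | base => intro _; exact Cn.refl (mem _ _ (by omega) (by omega) (by omega) (by omega))
      | succ x hx ih =>
        intro h
        exact (horz x (by omega) h).symm.trans (ih (by omega))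
    have down : ∀ x : ℤ, x ≤ 0 → -n ≤ x → Cn τ R (x, 0) (0, 0) := by
      intro x hx
      induction x, hx using Int.leInductionDown with
      | base => intro _; exact Cn.refl (mem _ _ (by omega) (by omega) (by omega) (by omega))
      | pred x hx ih =>
        intro h
        have e := horz (x - 1) h (by omega)
        rw [sub_add_cancel] at e
        exact e.trans (ih (by omega))
    intro x h1 h2
    rcases le_total 0 x with h | h
    · exact up x h h2
    · exact down x h h1
  -- the middle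
  have mid : ∀ x y : ℤ, -n ≤ x → x ≤ n → -n < y → y < n → Cn τ R (x, y) (0, 0) := by
    intro x y h1 h2
    have up : ∀ y : ℤ, 0 ≤ y → y < n → Cn τ R (x, y) (0, 0) := by
      intro y hy
      induction y, hy using Int.leInduction with
      | base => intro _; exact row x h1 h2
      | succ y hy ih =>
        intro h
        exact (vert x y h1 h2 (by omega) h).symm.trans (ih (by omega))
    have down : ∀ y : ℤ, y ≤ 0 → -n < y → Cn τ R (x, y) (0, 0) := by
      intro y hy
      induction y, hy using Int.leInductionDown with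
      | base => intro _; exact row x h1 h2
      | pred y hy ih =>
        intro h
        have e := vert x (y - 1) h1 h2 h (by omega)
        rw [sub_add_cancel] at e
        exact e.trans (ih (by omega))
    intro h3 h4
    rcases le_total 0 y with h | h
    · exact up y h h4
    · exact down y h h3
  -- everything except Q
  have all : ∀ x y : ℤ, -n ≤ x → x ≤ n → -n ≤ y → y ≤ n → (x, y) ≠ Q → Cn τ R (x, y) (0, 0) := by
    intro x y h1 h2 h3 h4 h5
    by_cases h6 : y = n
    · subst h6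
      have e : E τ (x, y) (x, y - 1) := edge _ _ (mem _ _ h1 h2 h3 h4)
        (mem _ _ h1 h2 (by omega) (by omega)) h5 (neQ _ _ h1 h2 (by omega) (by omega))
        (by rw [adj_iff]; dsimp only; omega) (by dsimp only; omega)
      exact (Cn.of_edge (mem _ _ h1 h2 h3 h4) (mem _ _ h1 h2 (by omega) (by omega)) e).trans
        (mid _ _ h1 h2 (by omega) (by omega))
    · by_cases h7 : y = -n
      · have e : E τ (x, y) (x, y + 1) := edge _ _ (mem _ _ h1 h2 h3 h4)
          (mem _ _ h1 h2 (by omega) (by omega)) h5 (neQ _ _ h1 h2 (by omega) (by omega))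
          (by rw [adj_iff]; dsimp only; omega) (by dsimp only; omega)
        exact (Cn.of_edge (mem _ _ h1 h2 h3 h4) (mem _ _ h1 h2 (by omega) (by omega)) e).trans
          (mid _ _ h1 h2 (by omega) (by omega))
      · exact mid _ _ h1 h2 (by omega) (by omega)
  rintro ⟨x, y⟩ hx
  have hx' := hx
  rw [hR, mem_rect] at hx'
  dsimp only at hx'
  obtain ⟨h1, h2, h3, h4⟩ := hx'
  by_cases h5 : (x, y) = Q
  · -- the flipped site is joined to a horizontal neighbour
    have side : ∀ x' : ℤ, -n ≤ x' → x' ≤ n → (x' = x + 1 ∨ x' = x - 1) →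
        Cn τ R (x, y) (0, 0) := by
      intro x' h6 h7 h8
      have h9 : (x', y) ≠ Q := by
        rw [← h5]
        intro h
        have := congrArg Prod.fst h
        dsimp only at this
        omega
      refine (Cn.of_edge hx (mem x' y h6 h7 h3 h4) ⟨?_, ?_⟩).trans (all x' y h6 h7 h3 h4 h9)
      · rw [adj_iff]; dsimp only; omega
      · rw [hτ _ hx, hτ _ (mem x' y h6 h7 h3 h4), decide_eq_true h5, decide_eq_false h9]
        dsimp only
        cases r <;> cases par y <;> simp
    by_cases h6 : x + 1 ≤ n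
    · exact side (x + 1) (by omega) h6 (Or.inl rfl)
    · exact side (x - 1) (by omega) (by omega) (Or.inr rfl)
  · exact all x y h1 h2 h3 h4 h5

/-- The pattern lemma. -/
theorem exists_pattern {n : ℤ} (hn : 3 ≤ n) (τ : ℤ × ℤ → Bool) (v : Fin 3 → ℤ × ℤ)
    (hv : ∀ i, v i ∉ Rect (-n) n (-n) n)
    (hv' : ∀ i, ∃ u ∈ Rect (-n) n (-n) n, Adj (v i) u)
    (hs : ∀ i j, Adj (v i) (v j) → τ (v i) = τ (v j)) :
    ∃ τ' : ℤ × ℤ → Bool, (∀ x, x ∉ Rect (-n) n (-n) n → τ' x = τ x) ∧
      (∀ x ∈ Rect (-n) n (-n) n, ∀ y ∈ Rect (-n) n (-n) n, Cn τ' (Rect (-n) n (-n) n) x y) ∧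
      ∀ i, ∃ u ∈ Rect (-n) n (-n) n, E τ' u (v i) := by
  classical
  set R := Rect (-n) n (-n) n with hR
  have hmaj : ∀ p : Fin 3 → Bool, ∃ r : Bool, ∃ i₀ : Fin 3, ∀ i, i ≠ i₀ → p i = r := by decide
  obtain ⟨r, i₀, hr⟩ := hmaj fun i => xor (!τ (v i)) (par (nbx n (v i)).2)
  have spec := fun i => nbx_spec hn (hv i) (hv' i)
  -- general construction
  have gen : ∀ Q : ℤ × ℤ, (Q ∉ R ∨ Q.2 = n ∨ Q.2 = -n) →
      (∀ i, ∃ u ∈ R, Adj u (v i) ∧ xor (xor r (par u.2)) (decide (u = Q)) ≠ τ (v i)) →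
      ∃ τ' : ℤ × ℤ → Bool, (∀ x, x ∉ R → τ' x = τ x) ∧
      (∀ x ∈ R, ∀ y ∈ R, Cn τ' R x y) ∧ ∀ i, ∃ u ∈ R, E τ' u (v i) := by
    intro Q hQ h
    set τ' : ℤ × ℤ → Bool := fun x =>
      if x ∈ R then xor (xor r (par x.2)) (decide (x = Q)) else τ x with hτ'
    have h1 : ∀ x ∈ R, τ' x = xor (xor r (par x.2)) (decide (x = Q)) := by
      intro x hx
      simp only [hτ', hx, if_true]
    have h2 : ∀ x, x ∉ R → τ' x = τ x := by
      intro x hx
      simp only [hτ', hx, if_false]
    have h3 := rect_cn hn r Q hQ h1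
    refine ⟨τ', h2, fun x hx y hy => (h3 x hx).trans (h3 y hy).symm, fun i => ?_⟩
    obtain ⟨u, hu, ha, hne⟩ := h i
    refine ⟨u, hu, ha, ?_⟩
    rw [h1 u hu, h2 _ (hv i)]
    exact hne
  -- the indices that agree with the stripes
  have agree : ∀ i, (xor (!τ (v i)) (par (nbx n (v i)).2)) = r →
      xor r (par (nbx n (v i)).2) ≠ τ (v i) := by
    intro i h
    rw [← h]
    cases τ (v i) <;> cases par (nbx n (v i)).2 <;> simp
  by_cases hrow : (nbx n (v i₀)).2 = n ∨ (nbx n (v i₀)).2 = -n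
  · by_cases hag : (xor (!τ (v i₀)) (par (nbx n (v i₀)).2)) = r
    · -- all agree
      refine gen (v i₀) (Or.inl (hv i₀)) fun i => ?_
      have h1 : (xor (!τ (v i)) (par (nbx n (v i)).2)) = r := by
        by_cases h : i = i₀
        · rw [h]; exact hag
        · exact hr i h
      refine ⟨nbx n (v i), (spec i).1, adj_symm (spec i).2.1, ?_⟩
      have h2 : nbx n (v i) ≠ v i₀ := fun h => hv i₀ (h ▸ (spec i).1)
      rw [decide_eq_false h2, Bool.xor_false]
      exact agree i h1
    · -- flip the site of i₀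
      refine gen (nbx n (v i₀)) (Or.inr hrow) fun i => ?_
      refine ⟨nbx n (v i), (spec i).1, adj_symm (spec i).2.1, ?_⟩
      by_cases h : i = i₀
      · subst h
        rw [decide_eq_true rfl]
        revert hag
        cases τ (v i) <;> cases par (nbx n (v i)).2 <;> cases r <;> simp
      · have h2 : nbx n (v i) ≠ nbx n (v i₀) := by
          intro h3
          have h4 := nbx_inj hn (hv i₀) (hv' i₀) (hv i) (hv' i) h3.symm hrow
          have h5 : τ (v i₀) = τ (v i) := by
            rcases h4 with h4 | h4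
            · rw [h4]
            · exact hs _ _ h4
          apply hag
          rw [h5, ← h3]
          exact hr i h
        rw [decide_eq_false h2, Bool.xor_false]
        exact agree i (hr i h)
  · -- no flip; the index i₀ has two neighbours in the box in different rows
    refine gen (v i₀) (Or.inl (hv i₀)) fun i => ?_
    by_cases h1 : (xor (!τ (v i)) (par (nbx n (v i)).2)) = r
    · refine ⟨nbx n (v i), (spec i).1, adj_symm (spec i).2.1, ?_⟩
      have h2 : nbx n (v i) ≠ v i₀ := fun h => hv i₀ (h ▸ (spec i).1)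
      rw [decide_eq_false h2, Bool.xor_false]
      exact agree i h1
    · have hi : i = i₀ := by
        by_contra h
        exact h1 (hr i h)
      subst hi
      rcases (spec i).2.2 with h2 | h2 | ⟨w, hw, ha, hp⟩
      · exact absurd (Or.inl h2) hrow
      · exact absurd (Or.inr h2) hrow
      · refine ⟨w, hw, adj_symm ha, ?_⟩
        have h2 : w ≠ v i := fun h => hv i (h ▸ hw)
        rw [decide_eq_false h2, Bool.xor_false, par_ne hp]
        revert h1
        cases τ (v i) <;> cases par (nbx n (v i)).2 <;> cases r <;> simp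

end Vale.Agent.P153.BK
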