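import Vale.Agent.P153.BK.Count
import Vale.Agent.P153.BK.Hex

/-!
Counting trifurcation boxes in a large hexagon.
-/

namespace Vale.Agent.P153.BK

open Relation Finset

/-- Translate of a configuration. -/
def sh (c : ℤ × ℤ) (τ : ℤ × ℤ → Bool) : ℤ × ℤ → Bool := fun x => τ (x + c)

theorem step_add {x y c : ℤ × ℤ} : Step (x + c) (y + c) ↔ Step x y := by
  obtain ⟨x1, x2⟩ := x; obtain ⟨y1, y2⟩ := y; obtain ⟨c1, c2⟩ := c
  simp only [Step, Prod.mk_add_mk]; constructor <;> intro h <;> omega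

theorem bi_sh {c : ℤ × ℤ} {τ : ℤ × ℤ → Bool} {x y : ℤ × ℤ} :
    Bi (sh c τ) x y ↔ Bi τ (x + c) (y + c) := by
  unfold Bi sh; rw [step_add]

theorem con_sh_mp {c : ℤ × ℤ} {τ : ℤ × ℤ → Bool} {A : Set (ℤ × ℤ)} {x y : ℤ × ℤ}
    (h : Con (sh c τ) A x y) : Con τ {z | z - c ∈ A} (x + c) (y + c) := by
  induction h with
  | refl => exact Con.refl _ _ _
  | tail _ hbc ih =>
    exact ih.trans (Con.single (bi_sh.1 hbc.1) (by simpa using hbc.2.1) (by simpa using hbc.2.2))

theorem con_sh_mpr {c : ℤ × ℤ} {τ : ℤ × ℤ → Bool} {A : Set (ℤ × ℤ)} {x y : ℤ × ℤ}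
    (h : Con τ {z | z - c ∈ A} (x + c) (y + c)) : Con (sh c τ) A x y := by
  have key : ∀ u v, Con τ {z | z - c ∈ A} u v → Con (sh c τ) A (u - c) (v - c) := by
    intro u v h
    induction h with
    | refl => exact Con.refl _ _ _
    | tail _ hbc ih =>
      refine ih.trans (Con.single (bi_sh.2 ?_) hbc.2.1 hbc.2.2)
      simpa using hbc.1
  simpa using key _ _ h

/-- The vertices at hexagonal distance exactly `R`. -/
def Bd (R : ℤ) : Set (ℤ × ℤ) := {x | x ∈ H R ∧ x ∉ H (R - 1)}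

/-- The hexagon of radius `n` is a trifurcation at scale `R`. -/
def Tri (n R : ℤ) (τ : ℤ × ℤ → Bool) : Prop :=
  (∀ x ∈ H n, Con τ (H n) x (0, 0)) ∧ ∃ a : Fin 3 → ℤ × ℤ, (∀ i, a i ∈ H R \ H n) ∧
    (∀ i, ∃ b ∈ H n, Bi τ (a i) b) ∧ (∀ i, ∃ s ∈ Bd R, Con τ (H R \ H n) (a i) s) ∧
    ∀ i j, i ≠ j → ¬ Con τ (H R \ H n) (a i) (a j)

theorem step_H {n : ℤ} {x y : ℤ × ℤ} (hx : x ∈ H n) (h : Step x y) : y ∈ H (n + 1) := by
  obtain ⟨x1, x2⟩ := x; obtain ⟨y1, y2⟩ := y
  simp only [mem_H, Step] at *; omega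

/-- Boxes around the points of `C`. -/
def Bx (n : ℤ) (c : ℤ × ℤ) : Set (ℤ × ℤ) := {x | x - c ∈ H n}

theorem mem_Bx_self {n : ℤ} (hn : 0 ≤ n) (c : ℤ × ℤ) : c ∈ Bx n c := by
  change c - c ∈ H n
  simp only [sub_self, mem_H, Prod.fst_zero, Prod.snd_zero]; omega

/-- **Counting.** -/
theorem tri_card {n N R : ℤ} (hn : 0 ≤ n) (C S : Finset (ℤ × ℤ)) (τ : ℤ × ℤ → Bool)
    (hS : ∀ x, x ∈ S ↔ x ∈ Bd N) (hC : ∀ c ∈ C, ∀ x ∈ Bx n c, x ∈ H (N - 1))
    (hdis : ∀ c ∈ C, ∀ c' ∈ C, c ≠ c' → ∀ x ∈ Bx n c, x ∉ Bx n c')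
    (hR : ∀ c ∈ C, ∀ x ∈ H N, x - c ∈ H (R - 1)) (T : Finset (ℤ × ℤ)) (hT : T ⊆ C)
    (hTri : ∀ t ∈ T, Tri n R (sh t τ)) : T.card ≤ S.card := by
  classical
  -- basic inclusions
  have HN : ∀ {x}, x ∈ H (N - 1) → x ∈ H N := by
    intro x hx; rw [mem_H] at hx ⊢; omega
  have HR : ∀ {x}, x ∈ H (R - 1) → x ∈ H R := by
    intro x hx; rw [mem_H] at hx ⊢; omega
  have inside : ∀ t ∈ T, ∀ x ∈ Bx n t, Con τ (Bx n t) x t := by
    intro t ht x hx
    have := con_sh_mp ((hTri t ht).1 (x - t) hx)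
    rw [show ((0, 0) : ℤ × ℤ) + t = t from zero_add t, sub_add_cancel] at this
    exact this
  -- the relations
  set r : ℤ × ℤ → ℤ × ℤ → ℤ × ℤ → Prop := fun t x y => Con τ (H N \ Bx n t) x y with hrdef
  have hr : ∀ t, Equivalence (r t) := fun t => con_equivalence τ _
  let st : Setoid (ℤ × ℤ) := ⟨Con τ (H N), con_equivalence τ _⟩
  let cl : ℤ × ℤ → Quotient st := fun x => Quotient.mk st x
  have hcl : ∀ x y, cl x = cl y ↔ Con τ (H N) x y := fun x y => Quotient.eq (r := st)
  have main : ∀ q : Quotient st, (T.filter (fun x => cl x = q)).card ≤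
      (S.filter (fun x => cl x = q)).card := by
    intro q
    refine trif_count r hr _ _ _ rfl ?_ ?_ ?_
    · rw [Finset.disjoint_left]
      intro x hx hx'
      have h1 := hC x (hT (Finset.mem_filter.1 hx).1) x (mem_Bx_self hn x)
      exact ((hS x).1 (Finset.mem_filter.1 hx').1).2 h1
    · intro t ht t' ht' htt' y hy hyt hyt' hnot
      obtain ⟨htT, htq⟩ := Finset.mem_filter.1 ht
      obtain ⟨ht'T, ht'q⟩ := Finset.mem_filter.1 ht'
      have hyq : cl y = q := by
        rcases Finset.mem_union.1 hy with h | h <;> exact (Finset.mem_filter.1 h).2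
      have hyN : y ∈ H N := by
        rcases Finset.mem_union.1 hy with h | h
        · exact HN (hC y (hT (Finset.mem_filter.1 h).1) y (mem_Bx_self hn y))
        · exact ((hS y).1 (Finset.mem_filter.1 h).1).1
      have hyout : ∀ u ∈ T, y ≠ u → y ∉ Bx n u := by
        intro u hu hyu hyB
        rcases Finset.mem_union.1 hy with h | h
        · exact hdis y (hT (Finset.mem_filter.1 h).1) u (hT hu) hyu y (mem_Bx_self hn y) hyB
        · exact ((hS y).1 (Finset.mem_filter.1 h).1).2 (hC u (hT hu) y hyB)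
      have hcon : Con τ (H N) y t := (hcl _ _).1 (hyq.trans htq.symm)
      have tN : ∀ x ∈ Bx n t, x ∈ H N \ Bx n t' := fun x hx =>
        ⟨HN (hC t (hT htT) x hx), hdis t (hT htT) t' (hT ht'T) htt' x hx⟩
      have t'N : ∀ x ∈ Bx n t', x ∈ H N \ Bx n t := fun x hx =>
        ⟨HN (hC t' (hT ht'T) x hx), hdis t' (hT ht'T) t (hT htT) htt'.symm x hx⟩
      rcases hcon.exit (B := (Bx n t)ᶜ) (hyout t htT hyt) with h | ⟨u, v, h1, h2, h3, h4, h5, h6⟩
      · exact absurd (h.right_mem ⟨hyN, hyout t htT hyt⟩).2 (fun h => h (mem_Bx_self hn t))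
      · have h1' : Con τ (H N \ Bx n t) y u := h1.mono (fun z hz => hz)
        have hv : v ∈ Bx n t := by
          by_contra hcon; exact h4 hcon
        have hvt : Con τ (H N \ Bx n t') v t := (inside t htT v hv).mono tN
        rcases h1'.exit (B := (Bx n t')ᶜ) (hyout t' ht'T hyt') with h | ⟨u', v', g1, g2, g3, g4, g5, g6⟩
        · have hu : u ∈ H N \ Bx n t' := by
            have := h.right_mem ⟨⟨hyN, hyout t htT hyt⟩, hyout t' ht'T hyt'⟩
            exact ⟨this.1.1, this.2⟩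
          have e1 : Con τ (H N \ Bx n t') y u := h.mono (fun z hz => ⟨hz.1.1, hz.2⟩)
          exact e1.trans ((Con.single h3 hu (tN v hv)).trans hvt)
        · exfalso
          apply hnot
          have hv' : v' ∈ Bx n t' := by
            by_contra hcon; exact g4 hcon
          have e1 : Con τ (H N \ Bx n t) y u' := g1.mono (fun z hz => hz.1)
          exact e1.trans ((Con.single g3 g5 g6).trans ((inside t' ht'T v' hv').mono t'N))
    · intro t ht
      obtain ⟨htT, htq⟩ := Finset.mem_filter.1 ht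
      obtain ⟨-, a, ha, hab, has, hsep⟩ := hTri t htT
      -- exit vertices
      have hex : ∀ i, ∃ s ∈ S, cl s = q ∧ Con τ (H N \ Bx n t) (a i + t) s := by
        intro i
        obtain ⟨b, hb, hbi⟩ := hab i
        obtain ⟨s, hs, hcon⟩ := has i
        have hb' : b + t ∈ Bx n t := by simpa [Bx] using hb
        have hbi' : Bi τ (a i + t) (b + t) := bi_sh.1 hbi
        have haN : a i + t ∈ H N := by
          have := step_H (hC t (hT htT) _ hb') hbi'.symm.1
          rwa [sub_add_cancel] at this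
        have haB : a i + t ∉ Bx n t := by
          intro h; exact (ha i).2 (by simpa [Bx] using h)
        have hcon' := con_sh_mp hcon
        have key : ∃ s ∈ S, Con τ (H N \ Bx n t) (a i + t) s := by
          rcases hcon'.exit (B := H N) haN with h | ⟨u, v, h1, h2, h3, h4, h5, h6⟩
          · exfalso
            have hmem := h.right_mem ⟨by simpa using ha i, haN⟩
            have := hR t (hT htT) _ hmem.2
            rw [add_sub_cancel_right] at this
            exact hs.2 this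
          · refine ⟨u, (hS u).2 ⟨h2, fun hu => h4 ?_⟩, h1.mono ?_⟩
            · have := step_H hu h3.1
              rwa [sub_add_cancel] at this
            · rintro z ⟨⟨hz1, hz2⟩, hz3⟩
              exact ⟨hz3, hz2⟩
        obtain ⟨s', hs', hc'⟩ := key
        refine ⟨s', hs', ?_, hc'⟩
        rw [← htq, hcl]
        have e1 : Con τ (H N) s' (a i + t) := (hc'.mono (fun z hz => hz.1)).symm
        have e2 : Con τ (H N) (a i + t) (b + t) :=
          Con.single hbi' haN (HN (hC t (hT htT) _ hb'))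
        have e3 : Con τ (H N) (b + t) t :=
          (inside t htT _ hb').mono (fun z hz => HN (hC t (hT htT) z hz))
        exact e1.trans (e2.trans e3)
      choose s hsS hsq hsc using hex
      have hne : ∀ i j, i ≠ j → ¬ r t (s i) (s j) := by
        intro i j hij hcon
        refine hsep i j hij (con_sh_mpr ?_)
        have : Con τ (H N \ Bx n t) (a i + t) (a j + t) :=
          (hsc i).trans (Con.trans hcon (hsc j).symm)
        exact this.mono (fun z hz => ⟨HR (hR t (hT htT) z hz.1), hz.2⟩)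
      exact ⟨s 0, Finset.mem_filter.2 ⟨hsS 0, hsq 0⟩, s 1, Finset.mem_filter.2 ⟨hsS 1, hsq 1⟩,
        s 2, Finset.mem_filter.2 ⟨hsS 2, hsq 2⟩, hne 0 1 (by decide), hne 1 2 (by decide),
        hne 0 2 (by decide)⟩
  have hTsum : T.card = ∑ q ∈ (T ∪ S).image cl, (T.filter (fun x => cl x = q)).card :=
    Finset.card_eq_sum_card_fiberwise (fun x hx => by
      simp only [Finset.coe_image, Set.mem_image]
      exact ⟨x, Finset.mem_coe.2 (Finset.mem_union_left _ hx), rfl⟩)
  have hSsum : S.card = ∑ q ∈ (T ∪ S).image cl, (S.filter (fun x => cl x = q)).card :=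
    Finset.card_eq_sum_card_fiberwise (fun x hx => by
      simp only [Finset.coe_image, Set.mem_image]
      exact ⟨x, Finset.mem_coe.2 (Finset.mem_union_right _ hx), rfl⟩)
  rw [hTsum, hSsum]
  exact Finset.sum_le_sum (fun q _ => main q)

end Vale.Agent.P153.BK
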