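import Vale.Agent.P153.BK.Arms

/-!
**Burton–Keane theorem** for the bichromatic graph of a translation invariant, mixing `±`
configuration with finite energy: at most one infinite cluster.
-/

namespace Vale.Agent.P153.BK

open Relation MeasureTheory Filter Topology Set
open scoped ENNReal symmDiff

/-- The cluster of `x` inside `A` is infinite. -/
def Inf (τ : Om) (A : Set (ℤ × ℤ)) (x : ℤ × ℤ) : Prop := {y | Con τ A x y}.Infinite

theorem Inf.of_con {τ : Om} {A : Set (ℤ × ℤ)} {x y : ℤ × ℤ} (h : Inf τ A x) (hc : Con τ A x y) :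
    Inf τ A y := by
  have : {z | Con τ A y z} = {z | Con τ A x z} := by
    ext z; exact ⟨fun hz => hc.trans hz, fun hz => hc.symm.trans hz⟩
  unfold Inf; rw [this]; exact h

theorem H_finite (n : ℤ) : (H n).Finite := by
  have : H n = (HF n : Set (ℤ × ℤ)) := by ext x; simp [mem_HF]
  rw [this]; exact Finset.finite_toSet _

/-- An infinite cluster reaches every distance. -/
theorem Inf.reach {τ : Om} {A : Set (ℤ × ℤ)} {x : ℤ × ℤ} (h : Inf τ A x) {R : ℤ}
    (hx : x ∈ H R) : ∃ s ∈ Bd R, Con τ (A ∩ H R) x s := by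
  have : ∃ y, Con τ A x y ∧ y ∉ H R := by
    by_contra hcon
    push Not at hcon
    exact h ((H_finite R).subset (fun y hy => hcon y hy))
  obtain ⟨y, hy, hyR⟩ := this
  rcases hy.exit (B := H R) hx with h1 | ⟨u, v, h1, h2, h3, h4, -, -⟩
  · exfalso
    by_cases hxy : x = y
    · exact hyR (hxy ▸ hx)
    · rcases ReflTransGen.cases_tail h1 with h | ⟨c, -, hc⟩
      · exact hxy h.symm
      · exact hyR hc.2.2.2
  · refine ⟨u, ⟨h2, fun hu => h4 ?_⟩, h1⟩
    have := step_H hu h3.1
    rwa [sub_add_cancel] at this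

theorem exists_H (x : ℤ × ℤ) : ∃ n : ℕ, x ∈ H n := by
  refine ⟨x.1.natAbs + x.2.natAbs, ?_⟩
  rw [mem_H]; omega

/-- Paths are finite. -/
theorem con_univ {τ : Om} {x y : ℤ × ℤ} (h : Con τ univ x y) :
    ∃ R : ℕ, ∀ R' : ℤ, R ≤ R' → Con τ (H R') x y := by
  induction h with
  | refl => exact ⟨0, fun _ _ => Con.refl _ _ _⟩
  | @tail b c _ hbc ih =>
    obtain ⟨R, hR⟩ := ih
    obtain ⟨k, hk⟩ := exists_H b
    obtain ⟨l, hl⟩ := exists_H c
    refine ⟨max R (max k l), fun R' hR' => ?_⟩
    push_cast at hR'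
    exact (hR R' (by omega)).trans (Con.single hbc.1 (H_mono (by omega) hk)
      (H_mono (by omega) hl))

/-- An infinite cluster meeting a hexagon has an infinite outer component next to the hexagon. -/
theorem Inf.outer {τ : Om} {x : ℤ × ℤ} {n : ℤ} (h : Inf τ univ x) (hx : x ∈ H n) :
    ∃ a, a ∉ H n ∧ (∃ b ∈ H n, Step a b) ∧ Con τ univ x a ∧ Inf τ (H n)ᶜ a := by
  by_contra hcon
  have hfin : ∀ a, a ∉ H n → (∃ b ∈ H n, Step a b) → Con τ univ x a →
      {y | Con τ (H n)ᶜ a y}.Finite := by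
    intro a h1 h2 h3
    by_contra h4
    exact hcon ⟨a, h1, h2, h3, h4⟩
  set ring : Set (ℤ × ℤ) := {a | a ∈ H (n + 1) ∧ a ∉ H n ∧ (∃ b ∈ H n, Step a b) ∧
    Con τ univ x a} with hring
  have hringfin : ring.Finite := (H_finite (n + 1)).subset (fun a ha => ha.1)
  apply h
  have hU : (H n ∪ ⋃ a ∈ ring, {y | Con τ (H n)ᶜ a y}).Finite := by
    refine (H_finite n).union (hringfin.biUnion (fun a ha => ?_))
    exact hfin a ha.2.1 ha.2.2.1 ha.2.2.2
  refine hU.subset (fun z hz => ?_)
  by_cases hzH : z ∈ H n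
  · exact Or.inl hzH
  · right
    have hz' : Con τ univ z x := Con.symm hz
    rcases hz'.exit (B := (H n)ᶜ) hzH with h1 | ⟨u, v, h1, h2, h3, h4, -, -⟩
    · exfalso
      rcases ReflTransGen.cases_tail h1 with h | ⟨c, -, hc⟩
      · exact hzH (h ▸ hx)
      · exact hc.2.2.2 hx
    · have hv : v ∈ H n := by by_contra hc; exact h4 hc
      have hu : u ∈ H (n + 1) := step_H hv h3.symm.1
      have h1' : Con τ (H n)ᶜ z u := h1.mono (fun w hw => hw.2)
      simp only [Set.mem_iUnion]
      refine ⟨u, ⟨hu, h2, ⟨v, hv, h3.1⟩, ?_⟩, h1'.symm⟩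
      exact Con.trans hz (h1'.mono (fun w _ => Set.mem_univ w))

/-- Two infinite clusters. -/
def E2 : Set Om := {τ | ∃ x y, Inf τ univ x ∧ Inf τ univ y ∧ ¬ Con τ univ x y}

theorem loc_con (R : ℤ) (x y : ℤ × ℤ) : Loc (HF R) {τ | Con τ (H R) x y} := fun _ _ h =>
  con_congr (fun z hz => h z (mem_HF.2 hz)) x y

theorem meas_con (x y : ℤ × ℤ) : MeasurableSet {τ : Om | Con τ univ x y} := by
  have : {τ : Om | Con τ univ x y} = ⋃ R : ℕ, {τ | Con τ (H R) x y} := by
    ext τ
    simp only [Set.mem_iUnion]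
    constructor
    · intro h
      obtain ⟨R, hR⟩ := con_univ h
      exact ⟨R, hR R le_rfl⟩
    · rintro ⟨R, hR⟩
      exact Con.mono hR (Set.subset_univ _)
  rw [this]
  exact MeasurableSet.iUnion (fun R => (loc_con R x y).meas)

theorem meas_inf (x : ℤ × ℤ) : MeasurableSet {τ : Om | Inf τ univ x} := by
  have : {τ : Om | Inf τ univ x} = ⋂ F : Finset (ℤ × ℤ), ⋃ y : ℤ × ℤ,
      {τ | y ∉ F ∧ Con τ univ x y} := by
    ext τ
    simp only [Set.mem_iInter, Set.mem_iUnion]
    constructor
    · intro h F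
      obtain ⟨y, hy, hyF⟩ := Set.Infinite.exists_notMem_finset h F
      exact ⟨y, hyF, hy⟩
    · intro h hfin
      obtain ⟨y, hy, hyc⟩ := h hfin.toFinset
      exact hy (by simpa using hyc)
  rw [this]
  refine MeasurableSet.iInter (fun F => MeasurableSet.iUnion (fun y => ?_))
  by_cases hy : y ∉ F
  · have : {τ : Om | y ∉ F ∧ Con τ univ x y} = {τ | Con τ univ x y} := by
      ext τ; exact ⟨fun h => h.2, fun h => ⟨hy, h⟩⟩
    rw [this]; exact meas_con x y
  · have : {τ : Om | y ∉ F ∧ Con τ univ x y} = ∅ := by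
      ext τ; exact ⟨fun h => absurd h.1 hy, fun h => h.elim⟩
    rw [this]; exact MeasurableSet.empty

theorem meas_E2 : MeasurableSet E2 := by
  have : E2 = ⋃ x : ℤ × ℤ, ⋃ y : ℤ × ℤ, {τ : Om | Inf τ univ x} ∩ ({τ | Inf τ univ y} ∩
      {τ | Con τ univ x y}ᶜ) := by
    ext τ; simp only [E2, Set.mem_iUnion]; rfl
  rw [this]
  exact MeasurableSet.iUnion (fun x => MeasurableSet.iUnion (fun y =>
    (meas_inf x).inter ((meas_inf y).inter (meas_con x y).compl)))

theorem con_sh_univ {c : ℤ × ℤ} {τ : Om} {x y : ℤ × ℤ} :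
    Con (sh c τ) univ x y ↔ Con τ univ (x + c) (y + c) :=
  ⟨fun h => (con_sh_mp h).mono (Set.subset_univ _),
    fun h => con_sh_mpr (h.mono (fun _ _ => Set.mem_univ _))⟩

theorem inf_sh {c : ℤ × ℤ} {τ : Om} {x : ℤ × ℤ} : Inf (sh c τ) univ x ↔ Inf τ univ (x + c) := by
  unfold Inf
  have : {y | Con τ univ (x + c) y} = (fun y => y + c) '' {y | Con (sh c τ) univ x y} := by
    ext z
    simp only [Set.mem_image]
    constructor
    · intro hz
      refine ⟨z - c, ?_, by simp⟩
      change Con (sh c τ) univ x (z - c)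
      rw [con_sh_univ, sub_add_cancel]; exact hz
    · rintro ⟨y, hy, rfl⟩
      exact con_sh_univ.1 hy
  rw [this, Set.infinite_image_iff (fun a _ b _ h => by simpa using h)]

theorem E2_sh (c : ℤ × ℤ) : sh c ⁻¹' E2 = E2 := by
  ext τ
  constructor
  · rintro ⟨x, y, hx, hy, hxy⟩
    exact ⟨x + c, y + c, inf_sh.1 hx, inf_sh.1 hy, fun h => hxy (con_sh_univ.2 h)⟩
  · rintro ⟨x, y, hx, hy, hxy⟩
    refine ⟨x - c, y - c, inf_sh.2 ?_, inf_sh.2 ?_, fun h => hxy ?_⟩
    · rwa [sub_add_cancel]
    · rwa [sub_add_cancel]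
    · have := con_sh_univ.1 h
      rwa [sub_add_cancel, sub_add_cancel] at this

/-- Zero-one law. -/
theorem E2_zero_one {P : Measure Om} (h : Hyp P) : P E2 = 0 ∨ P E2 = 1 := by
  have := h.prob
  obtain ⟨z, hz⟩ := h.mix
  set p : ℝ := P.real E2 with hp
  have hp0 : 0 ≤ p := measureReal_nonneg
  have hp1 : p ≤ 1 := measureReal_le_one
  have key : ∀ ε : ℝ, 0 < ε → |p - p * p| ≤ 4 * ε := by
    intro ε hε
    obtain ⟨B, t, hB, ht⟩ := exists_loc_approx P meas_E2 (ENNReal.ofReal_pos.2 hε)
    have htr : P.real (t ∆ E2) ≤ ε := ENNReal.toReal_le_of_le_ofReal hε.le ht.le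
    set q : ℝ := P.real t with hq
    have hq0 : 0 ≤ q := measureReal_nonneg
    have hq1 : q ≤ 1 := measureReal_le_one
    have hqp : |q - p| ≤ ε := by
      rw [abs_le]
      have e1 : q ≤ p + P.real (t ∆ E2) := by
        refine (measureReal_mono ?_).trans (measureReal_union_le E2 (t ∆ E2))
        intro x hx
        by_cases hxE : x ∈ E2
        · exact Or.inl hxE
        · exact Or.inr (Or.inl ⟨hx, hxE⟩)
      have e2 : p ≤ q + P.real (t ∆ E2) := by
        refine (measureReal_mono ?_).trans (measureReal_union_le t (t ∆ E2))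
        intro x hx
        by_cases hxE : x ∈ t
        · exact Or.inl hxE
        · exact Or.inr (Or.inr ⟨hx, hxE⟩)
      constructor <;> linarith
    have hlim : Tendsto (fun k => P.real (t ∩ sh (z k) ⁻¹' t)) atTop (𝓝 (q * q)) := by
      have h1 := (ENNReal.continuousAt_toReal (ENNReal.mul_ne_top (measure_ne_top P t)
        (measure_ne_top P t))).tendsto.comp (hz B t t hB hB)
      rw [ENNReal.toReal_mul] at h1
      exact h1
    have hbd : ∀ k, |P.real (t ∩ sh (z k) ⁻¹' t) - p| ≤ 2 * ε := by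
      intro k
      have hm : P.real (sh (z k) ⁻¹' (t ∆ E2)) = P.real (t ∆ E2) := by
        unfold Measure.real
        rw [h.inv' (z k) (hB.meas.symmDiff meas_E2)]
      have e1 : P.real (t ∩ sh (z k) ⁻¹' t) ≤ p + P.real (t ∆ E2) := by
        refine (measureReal_mono ?_).trans (measureReal_union_le E2 (t ∆ E2))
        rintro x ⟨hx, -⟩
        by_cases hxE : x ∈ E2
        · exact Or.inl hxE
        · exact Or.inr (Or.inl ⟨hx, hxE⟩)
      have e2 : p ≤ P.real (t ∩ sh (z k) ⁻¹' t) + (P.real (t ∆ E2) +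
          P.real (sh (z k) ⁻¹' (t ∆ E2))) := by
        refine (measureReal_mono (s₂ := (t ∩ sh (z k) ⁻¹' t) ∪ ((t ∆ E2) ∪
          (sh (z k) ⁻¹' (t ∆ E2)))) ?_).trans ((measureReal_union_le _ _).trans
            (add_le_add le_rfl (measureReal_union_le _ _)))
        intro x hx
        have hx' : sh (z k) x ∈ E2 := by
          have : x ∈ sh (z k) ⁻¹' E2 := by rw [E2_sh]; exact hx
          exact this
        by_cases h1 : x ∈ t
        · by_cases h2 : sh (z k) x ∈ t
          · exact Or.inl ⟨h1, h2⟩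
          · exact Or.inr (Or.inr (Or.inr ⟨hx', h2⟩))
        · exact Or.inr (Or.inl (Or.inr ⟨hx, h1⟩))
      rw [hm] at e2
      rw [abs_le]
      constructor <;> linarith
    have hqq : |q * q - p| ≤ 2 * ε := by
      have := (hlim.sub_const p).abs
      exact le_of_tendsto' this hbd
    have e3 : |p * p - q * q| ≤ 2 * ε := by
      have : p * p - q * q = (p - q) * (p + q) := by ring
      rw [this, abs_mul]
      have h1 : |p - q| ≤ ε := by rw [abs_sub_comm]; exact hqp
      have h2 : |p + q| ≤ 2 := by rw [abs_of_nonneg (by linarith)]; linarith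
      nlinarith [abs_nonneg (p - q), abs_nonneg (p + q)]
    calc |p - p * p| = |(p - q * q) + (q * q - p * p)| := by congr 1; ring
      _ ≤ |p - q * q| + |q * q - p * p| := abs_add_le _ _
      _ ≤ 2 * ε + 2 * ε := by
        rw [abs_sub_comm p, abs_sub_comm (q * q) (p * p)]; exact add_le_add hqq e3
      _ = 4 * ε := by ring
  have hpp : p - p * p = 0 := by
    by_contra hne
    have hpos : 0 < |p - p * p| := abs_pos.2 hne
    have := key (|p - p * p| / 8) (by linarith)
    linarith
  have : p = 0 ∨ p = 1 := by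
    have : p * (1 - p) = 0 := by linarith
    rcases mul_eq_zero.1 this with h | h
    · exact Or.inl h
    · exact Or.inr (by linarith)
  rcases this with h0 | h0
  · left
    rw [hp, measureReal_eq_zero_iff] at h0
    exact h0
  · right
    rw [hp] at h0
    unfold Measure.real at h0
    rw [← ENNReal.ofReal_one, ← h0, ENNReal.ofReal_toReal (measure_ne_top _ _)]

/-- Three vertices in a hexagon, in different infinite clusters, give three arms. -/
theorem arms_of_three {τ : Om} {n : ℤ} (a : Fin 3 → ℤ × ℤ) (h1 : ∀ i, a i ∉ H n)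
    (h2 : ∀ i, ∃ b ∈ H n, Step (a i) b) (h3 : ∀ i, Inf τ (H n)ᶜ (a i))
    (h4 : ∀ i j, i ≠ j → ¬ Con τ (H n)ᶜ (a i) (a j)) (R : ℤ) (hR : n < R) : Arms n R τ := by
  refine ⟨a, h1, h2, fun i => ?_, fun i j hij hc => h4 i j hij (hc.mono (fun z hz => hz.2))⟩
  have haR : a i ∈ H R := by
    obtain ⟨b, hb, hst⟩ := h2 i
    exact H_mono (by omega) (step_H hb (show Step b (a i) by unfold Step at hst ⊢; omega))
  obtain ⟨s, hs, hc⟩ := (h3 i).reach haR
  exact ⟨s, hs, hc.mono (fun z hz => ⟨hz.2, hz.1⟩)⟩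

/-- The modification argument: if there are exactly two infinite clusters, both meeting the
hexagon, they can be joined. -/
theorem join {τ : Om} {n : ℤ} (hn : 2 ≤ n) (hN : ∀ m : ℤ, 2 ≤ m → ¬ ∀ R, m < R → Arms m R τ)
    {x y : ℤ × ℤ} (hx : x ∈ H n) (hy : y ∈ H n) (hix : Inf τ univ x) (hiy : Inf τ univ y)
    (hxy : ¬ Con τ univ x y) : ∃ ε v, recol n (pat ε v) τ ∈ E2ᶜ := by
  obtain ⟨a1, a1H, a1b, xa1, ia1⟩ := hix.outer hx
  obtain ⟨a2, a2H, a2b, ya2, ia2⟩ := hiy.outer hy
  have ha12 : ¬ Con τ univ a1 a2 := fun h => hxy (xa1.trans (h.trans ya2.symm))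
  have ha12' : ¬ Con τ (H n)ᶜ a1 a2 := fun h => ha12 (h.mono (Set.subset_univ _))
  set a : Fin 3 → ℤ × ℤ := ![a1, a2, a2] with ha
  obtain ⟨ε, v, g1, a', g2, g3, g4⟩ := exists_attach (τ := τ) (A := (H n)ᶜ) hn
    (fun x hx _ => hx) (fun x hx => hx) a
    (fun i => by fin_cases i <;> simp [ha, a1H, a2H])
    (fun i => by
      fin_cases i
      · exact a1b
      · exact a2b
      · exact a2b)
    (fun i j => by
      fin_cases i <;> fin_cases j
      · exact Or.inl rfl
      · exact Or.inr ha12'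
      · exact Or.inr ha12'
      · exact Or.inr (fun h => ha12' h.symm)
      · exact Or.inl rfl
      · exact Or.inl rfl
      · exact Or.inr (fun h => ha12' h.symm)
      · exact Or.inl rfl
      · exact Or.inl rfl)
  refine ⟨ε, v, ?_⟩
  set τ' := recol n (pat ε v) τ with hτ'
  have hcong : ∀ z ∈ (H n)ᶜ, τ z = τ' z := fun z hz => (recol_out hz).symm
  have att : ∀ i, Con τ' univ (a i) (0, 0) := by
    intro i
    obtain ⟨b, hb, hbi⟩ := g4 i
    exact ((g3 i).mono (Set.subset_univ _)).trans ((Con.single hbi (Set.mem_univ _)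
      (Set.mem_univ _)).trans ((g1 b hb).mono (Set.subset_univ _)))
  have hin : ∀ z ∈ H n, Con τ' univ z (0, 0) := fun z hz => (g1 z hz).mono (Set.subset_univ _)
  -- every infinite cluster of `τ'` contains the origin
  have main : ∀ u, Inf τ' univ u → Con τ' univ u (0, 0) := by
    intro u hu
    by_contra hnot
    have huH : u ∉ H n := fun h => hnot (hin u h)
    have hout : ∀ z, Con τ' univ u z → Con τ (H n)ᶜ u z := by
      intro z hz
      rcases hz.exit (B := (H n)ᶜ) huH with h1 | ⟨p, q, h1, h2, h3, h4, -, -⟩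
      · rw [Set.univ_inter] at h1
        exact (con_congr hcong _ _).2 h1
      · exfalso
        have hq : q ∈ H n := by by_contra hc; exact h4 hc
        apply hnot
        exact (h1.mono (Set.subset_univ _)).trans ((Con.single h3 (Set.mem_univ _)
          (Set.mem_univ _)).trans (hin q hq))
    have hiu : Inf τ (H n)ᶜ u := by
      unfold Inf at hu ⊢
      exact hu.mono (fun z hz => hout z hz)
    have hiu' : Inf τ univ u := by
      unfold Inf at hiu ⊢
      exact hiu.mono (fun z hz => Con.mono hz (Set.subset_univ _))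
    have hsepu : ∀ i, ¬ Con τ (H n)ᶜ (a i) u := by
      intro i hc
      apply hnot
      have hc' : Con τ' univ (a i) u := ((con_congr hcong _ _).1 hc).mono (Set.subset_univ _)
      exact hc'.symm.trans (att i)
    by_cases hhit : ∃ z ∈ H n, Con τ univ u z
    · -- an outer component next to the hexagon
      obtain ⟨z, hz, hc⟩ := hhit
      rcases hc.exit (B := (H n)ᶜ) huH with h1 | ⟨p, q, h1, h2, h3, h4, -, -⟩
      · rcases ReflTransGen.cases_tail h1 with h | ⟨c, -, hc⟩
        · exact huH (h ▸ hz)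
        · exact hc.2.2.2 hz
      · have hq : q ∈ H n := by by_contra hc; exact h4 hc
        rw [Set.univ_inter] at h1
        refine hN n hn (fun R hR => arms_of_three ![a1, a2, p] ?_ ?_ ?_ ?_ R hR)
        · intro i; fin_cases i
          · exact a1H
          · exact a2H
          · exact h2
        · intro i; fin_cases i
          · exact a1b
          · exact a2b
          · exact ⟨q, hq, h3.1⟩
        · intro i; fin_cases i
          · exact ia1
          · exact ia2
          · exact hiu.of_con h1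
        · have s1 : ¬ Con τ (H n)ᶜ a1 p := fun h => hsepu 0 (h.trans h1.symm)
          have s2 : ¬ Con τ (H n)ᶜ a2 p := fun h => hsepu 1 (h.trans h1.symm)
          intro i j hij
          fin_cases i <;> fin_cases j
          · exact absurd rfl hij
          · exact ha12'
          · exact s1
          · exact fun h => ha12' h.symm
          · exact absurd rfl hij
          · exact s2
          · exact fun h => s1 h.symm
          · exact fun h => s2 h.symm
          · exact absurd rfl hij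
    · -- a third infinite cluster
      have hux : ¬ Con τ univ x u := fun h => hhit ⟨x, hx, h.symm⟩
      have huy : ¬ Con τ univ y u := fun h => hhit ⟨y, hy, h.symm⟩
      obtain ⟨k, hk⟩ := exists_H u
      set m : ℤ := max n k with hm
      have hm2 : 2 ≤ m := le_trans hn (le_max_left _ _)
      have hxm : x ∈ H m := H_mono (le_max_left _ _) hx
      have hym : y ∈ H m := H_mono (le_max_left _ _) hy
      have hum : u ∈ H m := H_mono (le_max_right _ _) hk
      obtain ⟨c1, c1H, c1b, xc1, ic1⟩ := hix.outer hxm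
      obtain ⟨c2, c2H, c2b, yc2, ic2⟩ := hiy.outer hym
      obtain ⟨c3, c3H, c3b, uc3, ic3⟩ := hiu'.outer hum
      have s12 : ¬ Con τ (H m)ᶜ c1 c2 := fun h =>
        hxy (xc1.trans ((h.mono (Set.subset_univ _)).trans yc2.symm))
      have s13 : ¬ Con τ (H m)ᶜ c1 c3 := fun h =>
        hux (xc1.trans ((h.mono (Set.subset_univ _)).trans uc3.symm))
      have s23 : ¬ Con τ (H m)ᶜ c2 c3 := fun h =>
        huy (yc2.trans ((h.mono (Set.subset_univ _)).trans uc3.symm))
      refine hN m hm2 (fun R hR => arms_of_three ![c1, c2, c3] ?_ ?_ ?_ ?_ R hR)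
      · intro i; fin_cases i
        · exact c1H
        · exact c2H
        · exact c3H
      · intro i; fin_cases i
        · exact c1b
        · exact c2b
        · exact c3b
      · intro i; fin_cases i
        · exact ic1
        · exact ic2
        · exact ic3
      · intro i j hij
        fin_cases i <;> fin_cases j
        · exact absurd rfl hij
        · exact s12
        · exact s13
        · exact fun h => s12 h.symm
        · exact absurd rfl hij
        · exact s23
        · exact fun h => s13 h.symm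
        · exact fun h => s23 h.symm
        · exact absurd rfl hij
  rintro ⟨u, w, hu, hw, huw⟩
  exact huw ((main u hu).trans (main w hw).symm)

/-- **Uniqueness of the infinite cluster.** -/
theorem E2_null {P : Measure Om} (h : Hyp P) : P E2 = 0 := by
  have := h.prob
  rcases E2_zero_one h with h0 | h1
  · exact h0
  exfalso
  have hc : P E2ᶜ = 0 := by
    rw [measure_compl meas_E2 (measure_ne_top _ _), measure_univ, h1, tsub_self]
  -- null set of configurations with three arms
  have hN : P (⋃ m : ℕ, {τ | ∀ R, ((m : ℤ) + 2) < R → Arms (m + 2) R τ}) = 0 := by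
    rw [measure_iUnion_null_iff]
    exact fun m => arms_null h (by omega)
  have hG : ∀ k : ℕ, P {τ : Om | (∀ m : ℤ, 2 ≤ m → ¬ ∀ R, m < R → Arms m R τ) ∧
      ∃ x y, x ∈ H (k + 2) ∧ y ∈ H (k + 2) ∧ Inf τ univ x ∧ Inf τ univ y ∧
        ¬ Con τ univ x y} = 0 := by
    intro k
    obtain ⟨C, hC, hcov⟩ := measure_recol_cover h (k + 2)
    refine le_antisymm ((hcov _ E2ᶜ meas_E2.compl ?_).trans (by rw [hc, mul_zero])) zero_le
    rintro τ ⟨hτ, x, y, hx, hy, hix, hiy, hxy⟩
    exact join (by omega) hτ hx hy hix hiy hxy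
  have hcover : E2 ⊆ (⋃ m : ℕ, {τ | ∀ R, ((m : ℤ) + 2) < R → Arms (m + 2) R τ}) ∪
      ⋃ k : ℕ, {τ : Om | (∀ m : ℤ, 2 ≤ m → ¬ ∀ R, m < R → Arms m R τ) ∧
      ∃ x y, x ∈ H (k + 2) ∧ y ∈ H (k + 2) ∧ Inf τ univ x ∧ Inf τ univ y ∧
        ¬ Con τ univ x y} := by
    rintro τ ⟨x, y, hx, hy, hxy⟩
    by_cases hτ : ∀ m : ℤ, 2 ≤ m → ¬ ∀ R, m < R → Arms m R τ
    · right
      obtain ⟨k, hk⟩ := exists_H x
      obtain ⟨l, hl⟩ := exists_H y
      refine Set.mem_iUnion.2 ⟨max k l, hτ, x, y, H_mono ?_ hk, H_mono ?_ hl, hx, hy, hxy⟩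
      · push_cast; have := le_max_left (k : ℤ) l; omega
      · push_cast; have := le_max_right (k : ℤ) l; omega
    · left
      push Not at hτ
      obtain ⟨m, hm, hm'⟩ := hτ
      refine Set.mem_iUnion.2 ⟨(m - 2).toNat, ?_⟩
      have e : (((m - 2).toNat : ℕ) : ℤ) + 2 = m := by omega
      rw [Set.mem_ofPred_eq, e]
      exact hm'
  have h0 : P E2 = 0 :=
    measure_mono_null hcover (measure_union_null hN ((measure_iUnion_null_iff).2 hG))
  rw [h1] at h0
  exact one_ne_zero h0

/-- Two vertices reach distance `R` without being connected inside `H R`. -/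
def Two (x y : ℤ × ℤ) (R : ℤ) : Set Om :=
  {τ | (∃ s ∈ Bd R, Con τ (H R) x s) ∧ (∃ s ∈ Bd R, Con τ (H R) y s) ∧ ¬ Con τ (H R) x y}

theorem loc_Two (x y : ℤ × ℤ) (R : ℤ) : Loc (HF R) (Two x y R) := by
  intro τ τ' h
  have hc : ∀ z ∈ H R, τ z = τ' z := fun z hz => h z (mem_HF.2 hz)
  simp only [Two, Set.mem_ofPred_eq, con_congr hc]

theorem reach_down {τ : Om} {x : ℤ × ℤ} {R R' : ℤ} (hRR : R ≤ R') (hx : x ∈ H R)
    (h : ∃ s ∈ Bd R', Con τ (H R') x s) : ∃ s ∈ Bd R, Con τ (H R) x s := by
  obtain ⟨s, hs, hc⟩ := h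
  rcases hRR.eq_or_lt with rfl | hlt
  · exact ⟨s, hs, hc⟩
  · have hsR : s ∉ H R := fun hsR => hs.2 (H_mono (by omega) hsR)
    rcases hc.exit (B := H R) hx with h1 | ⟨u, v, h1, h2, h3, h4, -, -⟩
    · exfalso
      rcases ReflTransGen.cases_tail h1 with h | ⟨c, -, hc⟩
      · exact hsR (h ▸ hx)
      · exact hsR hc.2.2.2
    · refine ⟨u, ⟨h2, fun hu => h4 ?_⟩, h1.mono (fun z hz => hz.2)⟩
      have := step_H hu h3.1
      rwa [sub_add_cancel] at this

/-- **Burton–Keane, finite-volume form.** -/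
theorem bk {P : Measure Om} (h : Hyp P) (x y : ℤ × ℤ) :
    Tendsto (fun R : ℕ => P (Two x y R)) atTop (𝓝 0) := by
  have := h.prob
  obtain ⟨k, hk⟩ := exists_H x
  obtain ⟨l, hl⟩ := exists_H y
  set R0 : ℕ := max k l with hR0
  have hx : ∀ R : ℕ, R0 ≤ R → x ∈ H R := fun R hR => H_mono (by
    have := le_max_left k l; exact_mod_cast this.trans hR) hk
  have hy : ∀ R : ℕ, R0 ≤ R → y ∈ H R := fun R hR => H_mono (by
    have := le_max_right k l; exact_mod_cast this.trans hR) hl
  have hanti : Antitone (fun i : ℕ => Two x y ((R0 + i : ℕ) : ℤ)) := by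
    intro i j hij τ hτ
    obtain ⟨h1, h2, h3⟩ := hτ
    have hle : ((R0 + i : ℕ) : ℤ) ≤ ((R0 + j : ℕ) : ℤ) := by exact_mod_cast Nat.add_le_add_left hij R0
    exact ⟨reach_down hle (hx _ (Nat.le_add_right _ _)) h1,
      reach_down hle (hy _ (Nat.le_add_right _ _)) h2,
      fun hc => h3 (hc.mono (H_mono hle))⟩
  have hinter : (⋂ i : ℕ, Two x y ((R0 + i : ℕ) : ℤ)) ⊆ E2 := by
    intro τ hτ
    rw [Set.mem_iInter] at hτ
    have hinf : ∀ w : ℤ × ℤ, (∀ i : ℕ, ∃ s ∈ Bd ((R0 + i : ℕ) : ℤ), Con τ (H ((R0 + i : ℕ) : ℤ)) w s) →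
        Inf τ univ w := by
      intro w hw hfin
      obtain ⟨F, hF⟩ := hfin.exists_finset_coe
      -- all elements of the cluster lie in some hexagon
      have : ∃ m : ℕ, ∀ z ∈ F, z ∈ H m := by
        clear hF
        induction F using Finset.induction_on with
        | empty => exact ⟨0, fun z hz => absurd hz (Finset.notMem_empty z)⟩
        | insert a s _ ih =>
          obtain ⟨m, hm⟩ := ih
          obtain ⟨p, hp⟩ := exists_H a
          refine ⟨max m p, fun z hz => ?_⟩
          rcases Finset.mem_insert.1 hz with rfl | hz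
          · exact H_mono (by exact_mod_cast le_max_right m p) hp
          · exact H_mono (by exact_mod_cast le_max_left m p) (hm z hz)
      obtain ⟨m, hm⟩ := this
      obtain ⟨s, hs, hc⟩ := hw (m + 1)
      have hsF : s ∈ F := by
        have : s ∈ (F : Set (ℤ × ℤ)) := by rw [hF]; exact hc.mono (Set.subset_univ _)
        exact this
      exact hs.2 (H_mono (by push_cast; omega) (hm s hsF))
    refine ⟨x, y, hinf x (fun i => (hτ i).1), hinf y (fun i => (hτ i).2.1), fun hc => ?_⟩
    obtain ⟨R, hR⟩ := con_univ hc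
    exact (hτ R).2.2 (hR _ (by push_cast; omega))
  have hlim := tendsto_measure_iInter_atTop (μ := P)
    (s := fun i : ℕ => Two x y ((R0 + i : ℕ) : ℤ))
    (fun i => (loc_Two x y _).meas.nullMeasurableSet) hanti ⟨0, measure_ne_top _ _⟩
  rw [measure_mono_null hinter (E2_null h)] at hlim
  rw [← tendsto_add_atTop_iff_nat R0]
  refine hlim.congr (fun i => ?_)
  simp only [Function.comp, add_comm R0 i]

end Vale.Agent.P153.BK
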